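import Vale.Agent.P095.Equi.Defs
import Vale.Agent.P095.Finite.Statement
import Vale.Agent.P101.ZStab.StepPins

/-!
# P095: statements of the modules of the equivariant absorption
-/

open scoped Kronecker Matrix.Norms.L2Operator

namespace Vale.P095.Equi

open Vale.P101 Vale.P101.ZS

noncomputable section

/-- Spatial tensor products carry `α ⊗ id` (module `Equi/Rep`). -/
def RepStmt : Prop :=
  ∀ (A B : Type) [CStarAlgebra A] [CStarAlgebra B] [Nontrivial A] [Nontrivial B]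
    (G : Type) [Group G] (α : G →* (A ≃⋆ₐ[ℂ] A)),
    ∃ (R : Type) (_ : CStarAlgebra R) (ιA : A →⋆ₐ[ℂ] R) (ιB : B →⋆ₐ[ℂ] R)
      (β : G →* (R ≃⋆ₐ[ℂ] R)),
      Function.Injective ιA ∧ (∀ a b, Commute (ιA a) (ιB b)) ∧
      Dense ((StarAlgebra.adjoin ℂ (Set.range ιA ∪ Set.range ιB) : StarSubalgebra ℂ R) : Set R) ∧
      (∀ g a, β g (ιA a) = ιA (α g a)) ∧ (∀ g b, β g (ιB b) = ιB b) ∧
      ((∃ (Φ : A ≃⋆ₐ[ℂ] R) (u : G → R), (∀ g, star (u g) * u g = 1 ∧ u g * star (u g) = 1) ∧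
          (∀ g h, u (g * h) = u g * β g (u h)) ∧
          ∀ g a, Φ (α g a) = u g * β g (Φ a) * star (u g)) →
        IsEquiStable A B α)

/-- The witnesses against characters: two almost commuting elements of bounded norm whose
self-commutators have squares summing to something invertible with bounded inverse. -/
def ComWitness {P Q : ℕ} (S : Set (DD P Q)) (ε : ℝ) : Prop :=
  ∃ (x : Fin 2 → DD P Q) (z : DD P Q), (∀ i, ‖(x i).1‖ ≤ 10000) ∧ ‖z.1‖ ≤ 10000 ∧
    z * ∑ i, (star (x i) * x i - x i * star (x i)) * (star (x i) * x i - x i * star (x i)) = 1 ∧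
    ∀ i, ∀ f ∈ S, ‖(x i).1 * f.1 - f.1 * (x i).1‖ ≤ ε

/-- Connecting maps have almost central witnesses (module `Equi/Com`). -/
def ComStmt : Prop :=
  ∀ (p : ℕ), 2 ≤ p → ∀ (F : Finset (DD p (p + 1))) (ε : ℝ), 0 < ε →
    ∃ L : ℕ, ∀ l, L ≤ l → ∀ σ U φ, IsStepMap (p := p) (l := l) σ U φ →
      ComWitness (φ '' (F : Set (DD p (p + 1)))) ε

/-- The limit algebra: a Jiang–Su algebra with flipped stages and almost central witnesses
(module `Equi/Limit`, from `ComStmt`). -/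
def BigTowerStmt : Prop :=
  ComStmt → ∃ (B : Type) (_ : CStarAlgebra B) (T : Tower B), IsJiangSu B ∧
    ∀ (n : ℕ) (F : Finset (DD (T.P n) (T.P n + 1))) (ε : ℝ), 0 < ε → ∃ m, n ≤ m ∧
      ComWitness {g | ∃ f ∈ F, T.emb m g = T.emb n f} ε

/-- Absorbing a witnessed algebra removes the characters (module `Equi/NoChar`). -/
def NoCharStmt : Prop :=
  ∀ (A B : Type) [CStarAlgebra A] [TopologicalSpace.SeparableSpace A] [Nontrivial A]
    [CStarAlgebra B] (T : Tower B),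
    (∀ (n : ℕ) (F : Finset (DD (T.P n) (T.P n + 1))) (ε : ℝ), 0 < ε → ∃ m, n ≤ m ∧
      ComWitness {g | ∃ f ∈ F, T.emb m g = T.emb n f} ε) →
    IsSpatialTensor A A B → ∀ ω : Ultrafilter ℕ, (ω : Filter ℕ) ≤ Filter.cofinite →
      NoCharacters (FOmega A ω)

/-- Equivariant absorption (module `Equi/Absorb`). -/
def EquiAbsorbStmt : Prop :=
  UnivStmt → ∀ (A : Type) [CStarAlgebra A] [TopologicalSpace.SeparableSpace A] [Nontrivial A]
    (ω : Ultrafilter ℕ), (ω : Filter ℕ) ≤ Filter.cofinite →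
    ∀ (G : Type) [Group G] [Countable G] (α : G →* (A ≃⋆ₐ[ℂ] A)),
    Vale.P095.HasFixedDimDropHom ω (fun g a => α g a) →
    ∀ (B : Type) [CStarAlgebra B], IsJiangSu B → Tower B → IsEquiStable A B α

end

end Vale.P095.Equi
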