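import Vale.Agent.P095.Equi.Core
import Vale.Agent.P095.Equi.Pins
import Vale.Agent.P101.ZStab.RW
import Vale.Agent.P101.ZStab.Tree

/-!
# P095: equivariant absorption

A unital `Z(2,3)` among the fixed central sequences leaves them without characters, so they have the
relations of every stage, and the intertwining applies.
-/

open scoped Kronecker Matrix.Norms.L2Operator BoundedContinuousFunction
open Filter Topology Matrix

namespace Vale.P095.Equi

open Vale.P101 Vale.P101.ZS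

noncomputable section

/-- Five square zero elements of `Z(2,3)` with squares summing to something invertible. -/
theorem dimDrop23_no_char (χ : DD.dimDrop23 →⋆ₐ[ℂ] ℂ) : False := by
  let lo : Fin 2 → Fin 2 → C(II, DD.M6) := fun i j =>
    ⟨fun t => ((1 - (t : ℝ) : ℝ) : ℂ) •
      (Matrix.single i j (1 : ℂ) ⊗ₖ (1 : Matrix (Fin 3) (Fin 3) ℂ)), by fun_prop⟩
  let hi : Fin 3 → Fin 3 → C(II, DD.M6) := fun i j =>
    ⟨fun t => ((t : ℝ) : ℂ) • ((1 : DD.M2) ⊗ₖ Matrix.single i j (1 : ℂ)), by fun_prop⟩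
  have hlo : ∀ i j, lo i j ∈ DD.dimDrop23 := fun i j =>
    ⟨⟨Matrix.single i j 1, by simp [lo]⟩, 0, by simp [lo]⟩
  have hhi : ∀ i j, hi i j ∈ DD.dimDrop23 := fun i j =>
    ⟨⟨0, by simp [hi]⟩, Matrix.single i j 1, by simp [hi]⟩
  let d : ℝ → ℝ := fun t => 1 / ((1 - t) ^ 2 + t ^ 2)
  have hd : ∀ t : ℝ, (1 - t) ^ 2 + t ^ 2 ≠ 0 := fun t => by nlinarith [sq_nonneg (1 - 2 * t)]
  let z : C(II, DD.M6) := ⟨fun t => ((d (t : ℝ) : ℝ) : ℂ) • (1 : DD.M6),
    ((Complex.continuous_ofReal.comp (by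
      exact Continuous.div continuous_const (by fun_prop) fun t => hd _)).smul continuous_const)⟩
  have hz : z ∈ DD.dimDrop23 :=
    ⟨⟨1, by simp [z, d, Matrix.one_kronecker_one]⟩, 1, by simp [z, d, Matrix.one_kronecker_one]⟩
  let L : Fin 2 → DD.dimDrop23 := fun j => ⟨lo (j + 1) j, hlo _ _⟩
  let M : Fin 3 → DD.dimDrop23 := fun j => ⟨hi (j + 1) j, hhi _ _⟩
  have hsq : (∀ j, L j * L j = 0) ∧ ∀ j, M j * M j = 0 := by
    constructor <;> intro j <;> refine Subtype.ext (ContinuousMap.ext fun t => ?_)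
    · show (lo (j + 1) j) t * (lo (j + 1) j) t = 0
      simp only [lo, ContinuousMap.coe_mk, smul_mul_smul_comm, ← Matrix.mul_kronecker_mul]
      rw [Matrix.single_mul_single_of_ne _ _ _ _ (by fin_cases j <;> decide)]
      simp
    · show (hi (j + 1) j) t * (hi (j + 1) j) t = 0
      simp only [hi, ContinuousMap.coe_mk, smul_mul_smul_comm, ← Matrix.mul_kronecker_mul]
      rw [Matrix.single_mul_single_of_ne _ _ _ _ (by fin_cases j <;> decide)]
      simp
  have hone : (⟨z, hz⟩ : DD.dimDrop23) *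
      (∑ j, star (L j) * L j + ∑ j, star (M j) * M j) = 1 := by
    refine Subtype.ext (ContinuousMap.ext fun t => ?_)
    simp only [MulMemClass.coe_mul, AddMemClass.coe_add, AddSubmonoidClass.coe_finsetSum,
      StarMemClass.coe_star, OneMemClass.coe_one, ContinuousMap.mul_apply, ContinuousMap.add_apply,
      ContinuousMap.coe_sum, Finset.sum_apply, ContinuousMap.star_apply, ContinuousMap.one_apply,
      L, M, lo, hi, z, ContinuousMap.coe_mk, star_smul, Complex.star_def, Complex.conj_ofReal,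
      Matrix.star_eq_conjTranspose, Matrix.conjTranspose_kronecker, Matrix.conjTranspose_one,
      Matrix.conjTranspose_single, star_one, smul_mul_smul_comm, ← Matrix.mul_kronecker_mul,
      Matrix.single_mul_single_same, mul_one, one_mul, ← Finset.smul_sum]
    rw [show (∑ j : Fin 3, (1 : DD.M2) ⊗ₖ Matrix.single j j (1 : ℂ)) = 1 by
        ext ⟨a, b⟩ ⟨c, e⟩; fin_cases b <;> fin_cases e <;>
          simp [Fin.sum_univ_three, Matrix.single, Matrix.one_apply, Prod.ext_iff],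
      show (∑ j : Fin 2, Matrix.single j j (1 : ℂ) ⊗ₖ (1 : Matrix (Fin 3) (Fin 3) ℂ)) = 1 by
        ext ⟨a, b⟩ ⟨c, e⟩; fin_cases a <;> fin_cases c <;>
          simp [Fin.sum_univ_two, Matrix.single, Matrix.one_apply, Prod.ext_iff]]
    simp only [← add_smul, smul_mul_smul_comm, mul_one, ← Complex.ofReal_mul, ← Complex.ofReal_add]
    rw [show d (t : ℝ) * ((1 - (t : ℝ)) * (1 - t) + (t : ℝ) * t) = 1 by
      simp only [d]
      rw [← sq, ← sq, one_div, inv_mul_cancel₀ (hd _)], Complex.ofReal_one, one_smul]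
  have h0 : ∀ x : DD.dimDrop23, x * x = 0 → χ x = 0 := fun x hx =>
    mul_self_eq_zero.1 (by rw [← map_mul, hx, map_zero])
  have := congrArg χ hone
  simp only [map_mul, map_add, map_sum, map_one, h0 _ (hsq.1 _), h0 _ (hsq.2 _), mul_zero,
    Finset.sum_const_zero, add_zero] at this
  exact zero_ne_one this

/-- Fixed points of a countable family have copies. -/
theorem copyProp_fixedAlg' {F : Type*} [CStarAlgebra F] {G : Type} {β : G → F →⋆ₐ[ℂ] F}
    (hc : EqCopyProp β) : CopyProp (fixedAlg β) := by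
  intro s t hs ht
  let ι₀ := (fixedAlg β).subtype
  obtain ⟨ρ, hρt, -, hρe⟩ := hc (ι₀ '' s) (ι₀ '' t) (hs.image _).countable (ht.image _).countable
    (by rintro g _ ⟨x, hx, rfl⟩; exact ⟨x, hx, (x.2 g).symm⟩)
  have hgen : ∀ b : gen s, ι₀ (b : fixedAlg β) ∈ gen (ι₀ '' s) := fun b => by
    have : ι₀ (b : fixedAlg β) ∈ (gen s).map ι₀ := ⟨b, b.2, rfl⟩
    rwa [StarAlgHom.map_adjoin] at this
  let ι : gen s →⋆ₐ[ℂ] gen (ι₀ '' s) := (ι₀.comp (gen s).subtype).codRestrict _ hgen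
  let σ : gen s →⋆ₐ[ℂ] fixedAlg β := (ρ.comp ι).codRestrict (fixedAlg β) fun b g =>
    (hρe g (ι b) (ι b) (((b : fixedAlg β).2 g).symm)).symm
  exact ⟨σ, fun b c hc' => Subtype.ext (hρt (ι b) _ ⟨c, hc', rfl⟩).eq⟩

/-- The stages map into the fixed central sequences. -/
theorem exists_fixed_hom {A : Type} [CStarAlgebra A] [TopologicalSpace.SeparableSpace A]
    (ω : Ultrafilter ℕ) (hω : (ω : Filter ℕ) ≤ cofinite) {G : Type} [Group G] [Countable G]
    (α : G →* (A ≃⋆ₐ[ℂ] A)) (hfix : HasFixedDimDropHom ω fun g a => α g a) (k : ℕ) (hk : 1 ≤ k) :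
    ∃ σ : DD (2 ^ k) (2 ^ k + 1) →⋆ₐ[ℂ] Ultrapower A ω,
      ∀ d, σ d ∈ Central A ω ∧ ∀ g, actU ω α g (σ d) = σ d := by
  obtain ⟨S, _, hS, ⟨φ⟩⟩ := hfix
  let incl : FOmega A ω →⋆ₐ[ℂ] Central A ω := StarAlgHom.id ℂ (Central A ω)
  let ψ : DD.dimDrop23 →⋆ₐ[ℂ] fixedAlg (actC ω α) :=
    (incl.comp (S.subtype.comp φ)).codRestrict (fixedAlg (actC ω α)) fun d g => by
      obtain ⟨f, hf⟩ := cls_surjective ω (toUltrapower ω (φ d : FOmega A ω))
      have h := hS _ (φ d).2 g f hf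
      refine Subtype.ext ?_
      show actU ω α g (toUltrapower ω (φ d : FOmega A ω)) = toUltrapower ω (φ d : FOmega A ω)
      rw [← hf, actU_cls, cls_eq_cls, mem_nullSeq]
      exact h
  have hfull : Full (commSet (fixedAlg (actC ω α))) :=
    full_commSet ⟨fun χ => dimDrop23_no_char (χ.comp ψ)⟩
  obtain ⟨s, v, h⟩ := treeStmt _ (copyProp_fixedAlg' (eqCopyProp_central α hω)) hfull k hk
  obtain ⟨σ⟩ := RW.rwStmt (fixedAlg (actC ω α)) (2 ^ k) _ s v (Nat.le_self_pow (by omega) 2) h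
  exact ⟨(Central A ω).subtype.comp ((fixedAlg (actC ω α)).subtype.comp σ),
    fun d => ⟨(σ d : Central A ω).2, fun g => congrArg Subtype.val ((σ d).2 g)⟩⟩

/-- Equivariant absorption. -/
theorem equiAbsorb (hRep : RepStmt) : EquiAbsorbStmt := by
  intro hU A _ _ _ ω hω G _ _ α hfix B _ hB T
  have : Nontrivial B := haveI := hB.1; inferInstance
  obtain ⟨R, _, ιA, ιB, β, hA, hcomm, hgen, hβA, hβB, transfer⟩ := hRep A B G α
  exact transfer (equi_core hU ω T α (fun S m => by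
    obtain ⟨k, hk, hm⟩ := T.pow m
    rw [hm]
    obtain ⟨σ, hσ⟩ := exists_fixed_hom ω hω α hfix k hk
    exact ⟨σ, fun d => ⟨(hσ d).1, fun g _ => (hσ d).2 g⟩⟩) ιA ιB hA hcomm hgen β hβA hβB)

end

end Vale.P095.Equi
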