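import Vale.Agent.P095.Equi.Pins
import Vale.Agent.P095.Equi.Com.Ends

/-!
# P095: connecting maps have almost central witnesses against characters
-/

open scoped Kronecker Matrix.Norms.L2Operator
open Matrix Filter

namespace Vale.P095.Equi

open Vale.P101.ZS Vale.P101.ZS.Fl Com

noncomputable section

namespace Com

theorem norm_comm_conj {Z : Type*} [CStarAlgebra Z] {V X E E₀ : Z} {c ε : ℝ} (hV : V ∈ unitary Z)
    (hX : ‖X‖ ≤ c) (hc : ‖X * E₀ - E₀ * X‖ ≤ ε) (hE : ‖E - E₀‖ ≤ ε) :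
    ‖V * X * star V * (V * E * star V) - V * E * star V * (V * X * star V)‖ ≤ (2 * c + 1) * ε := by
  have hVV := Unitary.star_mul_self_of_mem hV
  rw [show V * X * star V * (V * E * star V) - V * E * star V * (V * X * star V) =
      V * (X * E - E * X) * star V by
      simp only [mul_sub, sub_mul, mul_assoc]
      simp only [← mul_assoc (star V) V, hVV, one_mul],
    CStarRing.norm_mul_mem_unitary _ (Unitary.star_mem hV), CStarRing.norm_mem_unitary_mul _ hV,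
    show X * E - E * X = (X * E₀ - E₀ * X) + (X * (E - E₀) - (E - E₀) * X) by
      simp only [mul_sub, sub_mul]; abel]
  refine (norm_add_le _ _).trans ((add_le_add hc ((norm_sub_le _ _).trans
    (add_le_add (norm_mul_le _ _) (norm_mul_le _ _)))).trans ?_)
  nlinarith [norm_nonneg X, norm_nonneg (E - E₀)]

theorem sc_conj {n : Type*} [Fintype n] [DecidableEq n] {V : Matrix n n ℂ}
    (hV : V ∈ unitary (Matrix n n ℂ)) (r : ℝ) (X : Matrix n n ℂ) :
    sc ((r : ℂ) • (V * X * star V)) = ((r ^ 4 : ℝ) : ℂ) • (V * sc X * star V) := by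
  have hVV := Unitary.star_mul_self_of_mem hV
  simp only [sc, star_smul, star_mul, star_star, Complex.star_def, Complex.conj_ofReal,
    smul_mul_smul_comm, ← smul_sub, mul_sub, sub_mul, mul_assoc]
  simp only [← mul_assoc (star V) V, hVV, one_mul]
  congr 1
  push_cast
  ring

theorem pl_sc {n m X : Type*} [Fintype n] [DecidableEq n] [Fintype m] [DecidableEq m] [Fintype X]
    [DecidableEq X] (e : n ≃ m × X) (A : Matrix m m ℂ) : pl e (sc A) = sc (pl e A) := by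
  simp only [sc, pl_mul, pl_sub, pl_star]

theorem pl_diagonal {n m X : Type*} [DecidableEq n] [DecidableEq m] [DecidableEq X] (e : n ≃ m × X)
    (d : m → ℂ) : pl e (Matrix.diagonal d) = Matrix.diagonal fun x => d (e x).1 := by
  rw [pl, ← Matrix.diagonal_one, Matrix.diagonal_kronecker_diagonal,
    Matrix.submatrix_diagonal_equiv]
  congr 1
  funext x
  simp

theorem pl_prodComm {a b : Type*} [DecidableEq a] (M : Matrix b b ℂ) :
    pl (Equiv.prodComm a b) M = (1 : Matrix a a ℂ) ⊗ₖ M := by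
  ext x y
  simp [pl, Matrix.one_apply]

theorem pl_refl {a b : Type*} [DecidableEq b] (M : Matrix a a ℂ) :
    pl (Equiv.refl (a × b)) M = M ⊗ₖ (1 : Matrix b b ℂ) := rfl

theorem conj_pm_diagonal {n : Type*} [Fintype n] [DecidableEq n] (π : n ≃ n) (d : n → ℂ) :
    pm π * Matrix.diagonal d * star (pm π) = Matrix.diagonal fun x => d (π x) := by
  rw [pm_star, pm_mul, mul_pm, Matrix.submatrix_submatrix, Equiv.symm_symm, Function.comp_id,
    Function.id_comp, Matrix.submatrix_diagonal_equiv]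
  rfl

variable {p l : ℕ}

theorem close_low (_hp : 0 < p) (hl : 2 ≤ l) (σ : Pos₀ p (l + 1) ≃ Pos₁ p (l + 1)) (f : DD p (p + 1))
    (s : II) {η ε : ℝ} (hε : 0 < ε) (hη : η = 1 / (((l + 1 : ℕ) : ℝ) + 1))
    (hmod : ∀ x y : ℝ, |x - y| ≤ 6 * η → ‖StepMap.ext f x - StepMap.ext f y‖ ≤ ε / 10)
    (hnear : ∀ i, |lab₀ p (l + 1) i - lab₁ p (l + 1) (σ i)| ≤ 3 * η)
    (π : IP p (l + 1) ≃ IP p (l + 1)) (w : IP p (l + 1) → ℝ)
    (hcom₀ : ∀ (A : Matrix (Fin p) (Fin p) ℂ) (G : Fin l → Mat p (p + 1)) (ε : ℝ), 0 ≤ ε →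
      (∀ c c' : Fin l, (c : ℕ) ≤ c' + 2 → (c' : ℕ) ≤ c + 2 → ‖G c - G c'‖ ≤ ε) →
      ‖wp π w * sumHom (splitLow p l) ((1 : Matrix (Fin (p + 1 + 1)) (Fin (p + 1 + 1)) ℂ) ⊗ₖ A,
          dgHom p (Fin l) G) -
        sumHom (splitLow p l) ((1 : Matrix (Fin (p + 1 + 1)) (Fin (p + 1 + 1)) ℂ) ⊗ₖ A,
          dgHom p (Fin l) G) * wp π w‖ ≤ 2 * ε)
    (X₀ : Matrix (Out p (l + 1)) (Out p (l + 1)) ℂ)
    (hX : X₀ = pl (Equiv.refl (IP p (l + 1) × IQ p (l + 1))) (wp π w)) :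
    ∃ E₀, ‖X₀ * E₀ - E₀ * X₀‖ ≤ 2 * (ε / 10) ∧
      ‖(dg (StepMap.ext f) (fun j => (1 - (s : ℝ)) * lab₀ p (l + 1) j +
        s * lab₁ p (l + 1) (σ j))).submatrix (e₀ p (l + 1)) (e₀ p (l + 1)) - E₀‖ ≤ ε / 10 := by
  have hη0 : 0 < η := by rw [hη]; positivity
  have hgrid0 : grid (l + 1) (0 : Fin (l + 1)) = η := by simp [grid, hη]
  have hpt : ∀ j, |(1 - (s : ℝ)) * lab₀ p (l + 1) j + s * lab₁ p (l + 1) (σ j) -
      lab₀ p (l + 1) j| ≤ 3 * η := fun j => by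
    obtain ⟨q1, q2⟩ := abs_le.1 (hnear j)
    rw [abs_le]; constructor <;> nlinarith [s.2.1, s.2.2]
  obtain ⟨A, hA⟩ := f.2.1
  set D := (dg (StepMap.ext f) (fun j => (1 - (s : ℝ)) * lab₀ p (l + 1) j +
    s * lab₁ p (l + 1) (σ j))).submatrix (e₀ p (l + 1)) (e₀ p (l + 1))
  let g : ℝ → Mat p (p + 1) := fun x => if x ≤ η then f.1 0 else StepMap.ext f x
  have hg0 : g 0 = A ⊗ₖ (1 : Matrix (Fin (p + 1)) (Fin (p + 1)) ℂ) := by
    simp only [g, if_pos hη0.le]; exact hA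
  have hg1 : g (grid (l + 1) 0) = A ⊗ₖ (1 : Matrix (Fin (p + 1)) (Fin (p + 1)) ℂ) := by
    simp only [g, hgrid0, if_pos le_rfl]; exact hA
  have hrep : rep₀ p (l + 1) g = pl (Equiv.refl (IP p (l + 1) × IQ p (l + 1)))
      (small₀ p (l + 1) g) := StepMap.rep₀_eq p (l + 1) g ⟨A, hg0⟩
  have hD : ‖D - rep₀ p (l + 1) g‖ ≤ ε / 10 := by
    rw [show D - rep₀ p (l + 1) g = (dg (StepMap.ext f) (fun j => (1 - (s : ℝ)) *
        lab₀ p (l + 1) j + s * lab₁ p (l + 1) (σ j)) -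
        dg g (lab₀ p (l + 1))).submatrix (e₀ p (l + 1)) (e₀ p (l + 1)) from rfl]
    refine (norm_sub_le' _ _).trans (norm_dg_sub_le (by linarith) fun j => ?_)
    obtain ⟨q1, q2⟩ := abs_le.1 (hpt j)
    by_cases h : lab₀ p (l + 1) j ≤ η
    · simp only [g, if_pos h]
      rw [← StepMap.ext_coe f 0]
      refine hmod _ _ ?_
      have := (StepMap.lab₀_mem (p := p) (l := l + 1) j).1
      rw [Set.Icc.coe_zero, sub_zero, abs_le]
      constructor <;> linarith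
    · simp only [g, if_neg h]
      exact hmod _ _ ((hpt j).trans (by linarith))
  have hcm : ‖X₀ * rep₀ p (l + 1) g - rep₀ p (l + 1) g * X₀‖ ≤ 2 * (ε / 10) := by
    rw [hrep, hX, ← pl_mul, ← pl_mul, ← pl_sub]
    refine (norm_pl_le _ _).trans ?_
    rw [small₀_eq g A hg0 hg1]
    refine hcom₀ A _ _ (by linarith) fun c c' h h' => ?_
    have hbig : ∀ c : Fin l, g (grid (l + 1) c.succ) = StepMap.ext f (grid (l + 1) c.succ) :=
      fun c => if_neg (by
        rw [not_le, ← hgrid0]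
        unfold grid
        gcongr
        exact Nat.cast_lt.2 (Fin.succ_pos c))
    rw [hbig, hbig]
    refine hmod _ _ ((grid_dist c.succ c'.succ (by simp; omega) (by simp; omega)).trans ?_)
    rw [hη]; rw [mul_one_div]; gcongr; norm_num
  exact ⟨_, hcm, hD⟩

theorem close_high (hp0 : 0 < p) (hl : 2 ≤ l) (σ : Pos₀ p (l + 1) ≃ Pos₁ p (l + 1))
    (f : DD p (p + 1)) (s : II) {η ε : ℝ} (hε : 0 < ε) (hη : η = 1 / (((l + 1 : ℕ) : ℝ) + 1))
    (hmod : ∀ x y : ℝ, |x - y| ≤ 6 * η → ‖StepMap.ext f x - StepMap.ext f y‖ ≤ ε / 10)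
    (hnear : ∀ i, |lab₀ p (l + 1) i - lab₁ p (l + 1) (σ i)| ≤ 3 * η)
    (π : IQ p (l + 1) ≃ IQ p (l + 1)) (w : IQ p (l + 1) → ℝ)
    (hcom₁ : ∀ (B : Matrix (Fin (p + 1)) (Fin (p + 1)) ℂ) (G : Fin l → Mat p (p + 1)) (ε : ℝ),
      0 ≤ ε →
      (∀ c c' : Fin l, (c : ℕ) ≤ c' + 2 → (c' : ℕ) ≤ c + 2 → ‖G c - G c'‖ ≤ ε) →
      ‖wp π w * sumHom (splitHigh p l) ((1 : Matrix (Fin (p + 1)) (Fin (p + 1)) ℂ) ⊗ₖ B,
          dgHom p (Fin l) G) -
        sumHom (splitHigh p l) ((1 : Matrix (Fin (p + 1)) (Fin (p + 1)) ℂ) ⊗ₖ B,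
          dgHom p (Fin l) G) * wp π w‖ ≤ 2 * ε)
    (X₁ : Matrix (Out p (l + 1)) (Out p (l + 1)) ℂ)
    (hX : X₁ = pl (Equiv.prodComm (IP p (l + 1)) (IQ p (l + 1))) (wp π w)) :
    ∃ E₀, ‖X₁ * E₀ - E₀ * X₁‖ ≤ 2 * (ε / 10) ∧
      ‖pm (te σ) * (dg (StepMap.ext f) (fun j => (1 - (s : ℝ)) * lab₀ p (l + 1) j +
        s * lab₁ p (l + 1) (σ j))).submatrix (e₀ p (l + 1)) (e₀ p (l + 1)) * star (pm (te σ)) -
        E₀‖ ≤ ε / 10 := by
  have hη0 : 0 < η := by rw [hη]; positivity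
  have hgridl : grid (l + 1) (Fin.last l) = 1 - η := by
    rw [grid, Fin.val_last, hη, eq_sub_iff_add_eq, ← add_div, div_eq_one_iff_eq (by positivity)]
    push_cast; ring
  have hpt : ∀ j, |(1 - (s : ℝ)) * lab₀ p (l + 1) j + s * lab₁ p (l + 1) (σ j) -
      lab₁ p (l + 1) (σ j)| ≤ 3 * η := fun j => by
    obtain ⟨q1, q2⟩ := abs_le.1 (hnear j)
    rw [abs_le]; constructor <;> nlinarith [s.2.1, s.2.2]
  obtain ⟨B, hB⟩ := f.2.2
  have htau : tau σ = pm (te σ) := Fl.tau_eq σ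
  set T := pm (te σ)
  have hT : T ∈ unitary (Matrix (Out p (l + 1)) (Out p (l + 1)) ℂ) := pm_mem _
  set D := (dg (StepMap.ext f) (fun j => (1 - (s : ℝ)) * lab₀ p (l + 1) j +
    s * lab₁ p (l + 1) (σ j))).submatrix (e₀ p (l + 1)) (e₀ p (l + 1))
  let g : ℝ → Mat p (p + 1) := fun x => if 1 - η ≤ x then f.1 1 else StepMap.ext f x
  have hg0 : g 1 = (1 : Matrix (Fin p) (Fin p) ℂ) ⊗ₖ B := by
    simp only [g, if_pos (by linarith : 1 - η ≤ (1 : ℝ))]; exact hB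
  have hg1 : g (grid (l + 1) (Fin.last l)) = (1 : Matrix (Fin p) (Fin p) ℂ) ⊗ₖ B := by
    simp only [g, hgridl, if_pos le_rfl]; exact hB
  have hrep : rep₁ p (l + 1) g = pl (Equiv.prodComm (IP p (l + 1)) (IQ p (l + 1)))
      (small₁ p (l + 1) hp0 g) :=
    (StepMap.rep₁_eq p (l + 1) hp0 g ⟨B, hg0⟩).trans (pl_prodComm _).symm
  have hD : ‖T * D * star T - rep₁ p (l + 1) g‖ ≤ ε / 10 := by
    rw [← StepMap.tau_conj σ g, htau, ← sub_mul, ← mul_sub,
      CStarRing.norm_mul_mem_unitary _ (Unitary.star_mem hT),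
      CStarRing.norm_mem_unitary_mul _ hT]
    rw [show D - (dg g fun j => lab₁ p (l + 1) (σ j)).submatrix (e₀ p (l + 1)) (e₀ p (l + 1)) =
        (dg (StepMap.ext f) (fun j => (1 - (s : ℝ)) *
        lab₀ p (l + 1) j + s * lab₁ p (l + 1) (σ j)) -
        dg g fun j => lab₁ p (l + 1) (σ j)).submatrix (e₀ p (l + 1)) (e₀ p (l + 1)) from rfl]
    refine (norm_sub_le' _ _).trans (norm_dg_sub_le (by linarith) fun j => ?_)
    obtain ⟨q1, q2⟩ := abs_le.1 (hpt j)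
    by_cases h : 1 - η ≤ lab₁ p (l + 1) (σ j)
    · simp only [g, if_pos h]
      rw [← StepMap.ext_coe f 1]
      refine hmod _ _ ?_
      have := (StepMap.lab₁_mem (p := p) (l := l + 1) (σ j)).2
      rw [Set.Icc.coe_one, abs_le]
      constructor <;> linarith
    · simp only [g, if_neg h]
      exact hmod _ _ ((hpt j).trans (by linarith))
  have hcm : ‖X₁ * rep₁ p (l + 1) g - rep₁ p (l + 1) g * X₁‖ ≤ 2 * (ε / 10) := by
    rw [hrep, hX, ← pl_mul, ← pl_mul, ← pl_sub]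
    refine (norm_pl_le _ _).trans ?_
    rw [small₁_eq hp0 g B hg0 hg1]
    refine hcom₁ B _ _ (by linarith) fun c c' h h' => ?_
    have hbig : ∀ c : Fin l,
        g (grid (l + 1) c.castSucc) = StepMap.ext f (grid (l + 1) c.castSucc) :=
      fun c => if_neg (by
        rw [not_le, ← hgridl]
        unfold grid
        gcongr
        exact Nat.cast_lt.2 (Fin.castSucc_lt_last c))
    rw [hbig, hbig]
    refine hmod _ _ ((grid_dist c.castSucc c'.castSucc (by simp; omega)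
      (by simp; omega)).trans ?_)
    rw [hη]; rw [mul_one_div]; gcongr; norm_num
  exact ⟨_, hcm, hD⟩

/-- The inverse of the sum of the squares of the self-commutators. -/
theorem inverse_eq {n : Type*} [Fintype n] [DecidableEq n] {U : Matrix n n ℂ}
    (hU : U ∈ unitary (Matrix n n ℂ)) (π : n ≃ n) (r r' : ℝ) (d d' : n → ℝ)
    (h : ∀ x, r * d x + r' * d' (π.symm x) ≠ 0) :
    U * Matrix.diagonal (fun x => ((1 / (r * d x + r' * d' (π.symm x)) : ℝ) : ℂ)) * star U *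
      ((r : ℂ) • (U * Matrix.diagonal (fun x => ((d x : ℝ) : ℂ)) * star U) +
        (r' : ℂ) • (U * star (pm π) * Matrix.diagonal (fun x => ((d' x : ℝ) : ℂ)) *
          star (U * star (pm π)))) = 1 := by
  have hc := conj_pm_diagonal π.symm fun x => ((d' x : ℝ) : ℂ)
  rw [← pm_star, star_star] at hc
  have hE : U * star (pm π) * Matrix.diagonal (fun x => ((d' x : ℝ) : ℂ)) *
      star (U * star (pm π)) =
        U * Matrix.diagonal (fun x => ((d' (π.symm x) : ℝ) : ℂ)) * star U := by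
    rw [← hc]
    simp only [star_mul, star_star, mul_assoc]
  rw [hE, show (r : ℂ) • (U * Matrix.diagonal (fun x => ((d x : ℝ) : ℂ)) * star U) +
      (r' : ℂ) • (U * Matrix.diagonal (fun x => ((d' (π.symm x) : ℝ) : ℂ)) * star U) =
      U * Matrix.diagonal (fun x => ((r * d x + r' * d' (π.symm x) : ℝ) : ℂ)) * star U by
    rw [← smul_mul_assoc, ← mul_smul_comm, ← smul_mul_assoc, ← mul_smul_comm, ← add_mul, ← mul_add,
      ← Matrix.diagonal_smul, ← Matrix.diagonal_smul, Matrix.diagonal_add]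
    congr 3
    funext x
    simp]
  simp only [mul_assoc]
  rw [← mul_assoc (star U) U, Unitary.star_mul_self_of_mem hU, one_mul,
    ← mul_assoc (Matrix.diagonal _), Matrix.diagonal_mul_diagonal]
  rw [show (fun x => ((1 / (r * d x + r' * d' (π.symm x)) : ℝ) : ℂ) *
      ((r * d x + r' * d' (π.symm x) : ℝ) : ℂ)) = fun _ : n => (1 : ℂ)
    from funext fun x => by rw [← Complex.ofReal_mul, one_div_mul_cancel (h x), Complex.ofReal_one],
    Matrix.diagonal_one, one_mul, Unitary.mul_star_self_of_mem hU]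

end Com

/-- `ComStmt`. -/
theorem com : ComStmt := by
  classical
  intro p hp F ε hε
  have hp0 : 0 < p := by omega
  have hev : ∀ᶠ r in nhds (0 : ℝ), ∀ f ∈ F, ∀ x y : ℝ, |x - y| ≤ r →
      ‖StepMap.ext f x - StepMap.ext f y‖ ≤ ε / 10 := by
    rw [Finset.eventually_all]
    intro f _
    have huc : UniformContinuous (StepMap.ext f) :=
      (CompactSpace.uniformContinuous_of_continuous f.1.continuous).comp
        (LipschitzWith.projIcc _).uniformContinuous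
    obtain ⟨δ, hδ, hd⟩ := Metric.uniformContinuous_iff.1 huc (ε / 10) (by linarith)
    filter_upwards [Metric.ball_mem_nhds 0 hδ] with r hr x y hxy
    rw [mem_ball_zero_iff, Real.norm_eq_abs] at hr
    rw [← dist_eq_norm]
    exact (hd (lt_of_le_of_lt (le_of_eq (Real.dist_eq x y))
      (hxy.trans_lt ((le_abs_self r).trans_lt hr)))).le
  have hto : Tendsto (fun l : ℕ => (6 : ℝ) / ((l : ℝ) + 1)) atTop (nhds 0) := by
    simpa [div_eq_mul_inv] using
      (tendsto_one_div_add_atTop_nhds_zero_nat (𝕜 := ℝ)).const_mul (6 : ℝ)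
  obtain ⟨L, hL⟩ := Filter.eventually_atTop.1 (hto.eventually hev)
  refine ⟨max L 3, fun l hl σ U φ hσ => ?_⟩
  obtain ⟨hlL, hl3⟩ := max_le_iff.1 hl
  obtain ⟨l, rfl⟩ : ∃ k, l = k + 1 := ⟨l - 1, by omega⟩
  have hmod := hL (l + 1) hlL
  have hl2 : 2 ≤ l := by omega
  have hden : (0 : ℝ) < ((l + 1 : ℕ) : ℝ) + 1 := by positivity
  have hsix : (6 : ℝ) / (((l + 1 : ℕ) : ℝ) + 1) = 6 * (1 / (((l + 1 : ℕ) : ℝ) + 1)) := by ring
  set η : ℝ := 1 / (((l + 1 : ℕ) : ℝ) + 1) with hη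
  have hη0 : 0 < η := by positivity
  rw [hsix] at hmod
  have hnear : ∀ i, |lab₀ p (l + 1) i - lab₁ p (l + 1) (σ i)| ≤ 3 * η := fun i =>
    (hσ.near i).trans (le_of_eq (by rw [hη]; ring))
  have hgrid0 : grid (l + 1) (0 : Fin (l + 1)) = η := by simp [grid, hη]
  have hgridl : grid (l + 1) (Fin.last l) = 1 - η := by
    rw [grid, Fin.val_last, hη, eq_sub_iff_add_eq, ← add_div, div_eq_one_iff_eq hden.ne']
    push_cast; ring
  -- the small witnesses
  obtain ⟨π₀, w₀, hw₀, hc₀, hcom₀⟩ := exists_wp (N := p + 1 + 1) (by omega) hl2 (splitLow p l)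
  obtain ⟨π₁, w₁, hw₁, hc₁, hcom₁⟩ := exists_wp (N := p + 1) (by omega) hl2 (splitHigh p l)
  let d₀ := fun x => (w₀ x ^ 2 - w₀ (π₀ x) ^ 2) ^ 2
  let d₁ := fun x => (w₁ x ^ 2 - w₁ (π₁ x) ^ 2) ^ 2
  let X₀ : Matrix (Out p (l + 1)) (Out p (l + 1)) ℂ :=
    pl (Equiv.refl (IP p (l + 1) × IQ p (l + 1))) (wp π₀ w₀)
  let X₁ : Matrix (Out p (l + 1)) (Out p (l + 1)) ℂ :=
    pl (Equiv.prodComm (IP p (l + 1)) (IQ p (l + 1))) (wp π₁ w₁)
  have hX₀ : ‖X₀‖ ≤ 2 := (norm_pl_le _ _).trans (norm_wp_le _ hw₀)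
  have hX₁ : ‖X₁‖ ≤ 2 := (norm_pl_le _ _).trans (norm_wp_le _ hw₁)
  let T : Matrix (Out p (l + 1)) (Out p (l + 1)) ℂ := pm (te σ)
  have hT : T ∈ unitary (Matrix (Out p (l + 1)) (Out p (l + 1)) ℂ) := pm_mem _
  have htau : tau σ = T := Fl.tau_eq σ
  let V : II → Matrix (Out p (l + 1)) (Out p (l + 1)) ℂ := fun s => U s * star T
  have hV : ∀ s, V s ∈ unitary (Matrix (Out p (l + 1)) (Out p (l + 1)) ℂ) := fun s =>
    mul_mem (hσ.unitary' s) (Unitary.star_mem hT)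
  have hV1 : V 1 = 1 := by
    simp only [V]; rw [hσ.finish, htau, Unitary.mul_star_self_of_mem hT]
  let x₀ : C(II, Mat (nextP p (l + 1)) (nextP p (l + 1) + 1)) :=
    ⟨fun s => ((1 - (s : ℝ) : ℝ) : ℂ) • (U s * X₀ * star (U s)),
      (by fun_prop : Continuous fun s : II => ((1 - (s : ℝ) : ℝ) : ℂ)).smul
        ((U.continuous.mul continuous_const).mul U.continuous.star)⟩
  let x₁ : C(II, Mat (nextP p (l + 1)) (nextP p (l + 1) + 1)) :=
    ⟨fun s => ((s : ℝ) : ℂ) • (V s * X₁ * star (V s)),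
      (by fun_prop : Continuous fun s : II => ((s : ℝ) : ℂ)).smul
        (((U.continuous.mul continuous_const).mul continuous_const).mul
          (U.continuous.mul continuous_const).star)⟩
  have hx₀ : x₀ ∈ DD (nextP p (l + 1)) (nextP p (l + 1) + 1) :=
    ⟨⟨wp π₀ w₀, by simp [x₀, hσ.start, X₀, pl_refl]⟩, 0, by simp [x₀]⟩
  have hx₁ : x₁ ∈ DD (nextP p (l + 1)) (nextP p (l + 1) + 1) :=
    ⟨⟨0, by simp [x₁]⟩, wp π₁ w₁, by simp [x₁, hV1, X₁, pl_prodComm]⟩
  -- the diagonal inverse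
  let t : II → Out p (l + 1) → ℝ := fun s x =>
    (1 - (s : ℝ)) ^ 4 * d₀ x.1 + (s : ℝ) ^ 4 * d₁ ((te σ).symm x).2
  have ht : ∀ s x, 1 / 16 ≤ t s x := by
    intro s x
    have a0 : 0 ≤ (1 - (s : ℝ)) := by linarith [s.2.2]
    have a1 := s.2.1
    have b0 := hc₀ x.1
    have b1 := hc₁ ((te σ).symm x).2
    have h0 : (1 - (s : ℝ)) ^ 4 * 1 ≤ (1 - (s : ℝ)) ^ 4 * d₀ x.1 :=
      mul_le_mul_of_nonneg_left b0 (by positivity)
    have h1 : (s : ℝ) ^ 4 * 1 ≤ (s : ℝ) ^ 4 * d₁ ((te σ).symm x).2 :=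
      mul_le_mul_of_nonneg_left b1 (by positivity)
    simp only [t]
    rcases le_total (s : ℝ) (1 / 2) with hs | hs
    · have := pow_le_pow_left₀ (by norm_num) (show (1 : ℝ) / 2 ≤ 1 - s by linarith) 4
      nlinarith [pow_nonneg a1 4]
    · have := pow_le_pow_left₀ (by norm_num) hs 4
      nlinarith [pow_nonneg a0 4]
  have htc : Continuous fun s : II => fun x => ((1 / t s x : ℝ) : ℂ) :=
    continuous_pi fun x => Complex.continuous_ofReal.comp
      (continuous_const.div (by fun_prop) fun s => by linarith [ht s x])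
  let z : C(II, Mat (nextP p (l + 1)) (nextP p (l + 1) + 1)) :=
    ⟨fun s => U s * Matrix.diagonal (fun x => ((1 / t s x : ℝ) : ℂ)) * star (U s),
      (U.continuous.mul htc.matrix_diagonal).mul U.continuous.star⟩
  have hz : z ∈ DD (nextP p (l + 1)) (nextP p (l + 1) + 1) := by
    refine ⟨⟨Matrix.diagonal fun a => ((1 / d₀ a : ℝ) : ℂ), ?_⟩,
      Matrix.diagonal fun b => ((1 / d₁ b : ℝ) : ℂ), ?_⟩
    · show U 0 * _ * star (U 0) = _
      rw [hσ.start, one_mul, star_one, mul_one, ← pl_refl, pl_diagonal]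
      congr 1
      funext x
      simp [t]
    · show U 1 * _ * star (U 1) = _
      rw [hσ.finish, htau, conj_pm_diagonal, ← pl_prodComm, pl_diagonal]
      congr 1
      funext x
      simp [t]
  refine ⟨![⟨x₀, hx₀⟩, ⟨x₁, hx₁⟩], ⟨z, hz⟩, fun i => ?_, ?_, ?_, fun i g hg => ?_⟩
  · have hn : ∀ r : ℝ, |r| ≤ 1 → ∀ {W X : Matrix (Out p (l + 1)) (Out p (l + 1)) ℂ},
        W ∈ unitary _ → ‖X‖ ≤ 2 → ‖(r : ℂ) • (W * X * star W)‖ ≤ 10000 := by
      intro r hr W X hW hX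
      rw [norm_smul, Complex.norm_real, Real.norm_eq_abs,
        CStarRing.norm_mul_mem_unitary _ (Unitary.star_mem hW), CStarRing.norm_mem_unitary_mul _ hW]
      nlinarith [abs_nonneg r, norm_nonneg X]
    refine (ContinuousMap.norm_le _ (by norm_num)).2 fun s => ?_
    fin_cases i
    · exact hn _ (abs_le.2 ⟨by linarith [s.2.2], by linarith [s.2.1]⟩) (hσ.unitary' s) hX₀
    · exact hn _ (abs_le.2 ⟨by linarith [s.2.1], s.2.2⟩) (hV s) hX₁
  · refine (ContinuousMap.norm_le _ (by norm_num)).2 fun s => ?_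
    show ‖U s * _ * star (U s)‖ ≤ 10000
    rw [CStarRing.norm_mul_mem_unitary _ (Unitary.star_mem (hσ.unitary' s)),
      CStarRing.norm_mem_unitary_mul _ (hσ.unitary' s)]
    refine norm_diagonal_le (by norm_num) fun x => ?_
    have h := ht s x
    rw [Complex.norm_real, Real.norm_eq_abs, abs_of_pos (by positivity), div_le_iff₀ (by linarith)]
    linarith
  · rw [Fin.sum_univ_two]
    refine Subtype.ext (ContinuousMap.ext fun s => ?_)
    show z s * (sc (x₀ s) + sc (x₁ s)) = 1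
    simp only [x₀, x₁, z, ContinuousMap.coe_mk]
    rw [sc_conj (hσ.unitary' s), sc_conj (hV s)]
    simp only [X₀, X₁]
    rw [← pl_sc, ← pl_sc, sc_wp, sc_wp, pl_diagonal, pl_diagonal]
    exact inverse_eq (hσ.unitary' s) (te σ) ((1 - (s : ℝ)) ^ 4) ((s : ℝ) ^ 4)
      (fun x => d₀ x.1) (fun x => d₁ x.2) fun x => ne_of_gt (by linarith [ht s x])
  obtain ⟨f, hf, rfl⟩ := hg
  have hf' : f ∈ F := hf
  refine (ContinuousMap.norm_le _ hε.le).2 fun s => ?_
  have hform := hσ.formula f s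
  fin_cases i
  · obtain ⟨E₀, hcm, hD⟩ := close_low hp0 hl2 σ f s hε rfl (hmod f hf') hnear π₀ w₀ hcom₀ X₀ rfl
    show ‖((1 - (s : ℝ) : ℝ) : ℂ) • (U s * X₀ * star (U s)) * (φ f).1 s -
      (φ f).1 s * (((1 - (s : ℝ) : ℝ) : ℂ) • (U s * X₀ * star (U s)))‖ ≤ ε
    rw [hform, Matrix.smul_mul, Matrix.mul_smul, ← smul_sub, norm_smul, Complex.norm_real,
      Real.norm_eq_abs, abs_of_nonneg (by linarith [s.2.2])]
    refine (mul_le_mul (show 1 - (s : ℝ) ≤ 1 by linarith [s.2.1])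
      (norm_comm_conj (ε := 2 * (ε / 10)) (hσ.unitary' s) hX₀ hcm (hD.trans (by linarith)))
      (norm_nonneg _) zero_le_one).trans (by linarith)
  · obtain ⟨E₀, hcm, hD⟩ := close_high hp0 hl2 σ f s hε rfl (hmod f hf') hnear π₁ w₁ hcom₁ X₁ rfl
    show ‖((s : ℝ) : ℂ) • (V s * X₁ * star (V s)) * (φ f).1 s -
      (φ f).1 s * (((s : ℝ) : ℂ) • (V s * X₁ * star (V s)))‖ ≤ ε
    have hform' : ∀ M : Matrix (Out p (l + 1)) (Out p (l + 1)) ℂ,
        U s * M * star (U s) = V s * (T * M * star T) * star (V s) := fun M => by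
      simp only [V, star_mul, star_star, mul_assoc]
      rw [← mul_assoc (star T) T, Unitary.star_mul_self_of_mem hT, one_mul,
        ← mul_assoc (star T) T, Unitary.star_mul_self_of_mem hT, one_mul]
    rw [hform, hform', Matrix.smul_mul, Matrix.mul_smul, ← smul_sub, norm_smul, Complex.norm_real,
      Real.norm_eq_abs, abs_of_nonneg s.2.1]
    refine (mul_le_mul s.2.2
      (norm_comm_conj (ε := 2 * (ε / 10)) (hV s) hX₁ hcm (hD.trans (by linarith)))
      (norm_nonneg _) zero_le_one).trans (by linarith)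

end

end Vale.P095.Equi
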