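import Vale.Agent.P095.Equi.Intertwine
import Vale.Agent.P095.Finite.Main
import Vale.Agent.P095.Finite.General
import Vale.Agent.P101.ZStab.Absorb.Core

/-!
# P095: equivariant absorption, the unitaries

With homomorphisms of the stages into the fixed points of `F_ω(A)` the flip gives unitaries of
`R_ω` which commute with `A` and are fixed by the action, and intertwining gives the cocycle
conjugacy.
-/

open scoped Kronecker Matrix.Norms.L2Operator BoundedContinuousFunction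
open Filter Topology

namespace Vale.P095.Equi

open Vale.P101 Vale.P101.ZS Vale.P101.ZS.Absorb

noncomputable section

variable {A B R : Type} [CStarAlgebra A] [CStarAlgebra B] [CStarAlgebra R] {G : Type} [Group G]

/-- The flip unitaries, fixed by a finite part of the action. -/
theorem exists_rot_fixed (hU : UnivStmt) (ω : Ultrafilter ℕ) (T : Tower B)
    (α : G →* (A ≃⋆ₐ[ℂ] A)) (S : Finset G)
    (hσ : ∀ m, ∃ σ : DD (T.P m) (T.P m + 1) →⋆ₐ[ℂ] Ultrapower A ω,
      ∀ d, σ d ∈ Central A ω ∧ ∀ g ∈ S, actU ω α g (σ d) = σ d)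
    (ιA : A →⋆ₐ[ℂ] R) (ιB : B →⋆ₐ[ℂ] R) (hcomm : ∀ a b, Commute (ιA a) (ιB b))
    (β : G →* (R ≃⋆ₐ[ℂ] R)) (hβA : ∀ g a, β g (ιA a) = ιA (α g a))
    (hβB : ∀ g b, β g (ιB b) = ιB b) (F : Finset B) (δ : ℝ) (hδ : 0 < δ) :
    ∃ v ∈ unitary (Ultrapower R ω), (∀ a, Commute (constHom ω (ιA a)) v) ∧
      (∀ g ∈ S, actU ω β g v = v) ∧
      ∀ b ∈ F, ∃ y, ‖star v * constHom ω (ιB b) * v - mapU ω ιA y‖ ≤ δ := by
  classical
  have happ : ∀ b : B, ∃ n, ∃ f, ‖T.emb n f - b‖ ≤ δ / 2 := fun b => by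
    obtain ⟨_, hx, hd⟩ := Metric.mem_closure_iff.1 (T.dense b) (δ / 2) (half_pos hδ)
    obtain ⟨n, f, rfl⟩ := Set.mem_iUnion.1 hx
    exact ⟨n, f, by rw [← dist_eq_norm, dist_comm]; exact hd.le⟩
  choose N f hf using happ
  set n := F.sup N with hn
  have hup : ∀ b ∈ F, ∃ f', T.emb n f' = T.emb (N b) (f b) := fun b hb =>
    T.mono _ _ (Finset.le_sup hb) ⟨f b, rfl⟩
  choose! f' hf' using hup
  obtain ⟨m, -, u, hu, hflip⟩ := T.flip n (F.image f') (δ / 2) (half_pos hδ)
  obtain ⟨σ, hσm⟩ := hσ m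
  -- fixed elements commuting with `A`
  let E : StarSubalgebra ℂ (Ultrapower R ω) :=
    StarSubalgebra.centralizer ℂ (Set.range fun a => constHom ω (ιA a)) ⊓
      fixedAlg (fun g : S => actU ω β g.1)
  have memE : ∀ {z : Ultrapower R ω}, (∀ a, Commute (constHom ω (ιA a)) z) →
      (∀ g ∈ S, actU ω β g z = z) → z ∈ E := by
    intro z hz hz'
    refine ⟨(StarSubalgebra.mem_centralizer_iff ℂ).2 ?_, fun g => hz' g.1 g.2⟩
    rintro _ ⟨a, rfl⟩
    exact ⟨hz a, by rw [← map_star, ← map_star]; exact hz (star a)⟩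
  have : IsClosed (E : Set (Ultrapower R ω)) := by
    show IsClosed (((StarSubalgebra.centralizer ℂ (Set.range fun a => constHom ω (ιA a)) :
        StarSubalgebra ℂ (Ultrapower R ω)) : Set (Ultrapower R ω)) ∩
      ((fixedAlg fun g : S => actU ω β g.1 : StarSubalgebra ℂ (Ultrapower R ω)) :
        Set (Ultrapower R ω)))
    refine IsClosed.inter ?_ inferInstance
    rw [StarSubalgebra.coe_centralizer]
    exact Set.isClosed_centralizer _
  letI : CStarAlgebra E := StarSubalgebra.cstarAlgebra _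
  have hconst : ∀ a, constHom ω (ιA a) = mapU ω ιA (constSeq ω a) := fun a =>
    (mapU_constSeq ω ιA a).symm
  have hJβ : ∀ g x, actU ω β g (mapU ω ιA x) = mapU ω ιA (actU ω α g x) := fun g x => by
    rw [actU, actU, mapU_comp, mapU_comp]
    congr 2
    exact StarAlgHom.ext (hβA g)
  let ρ₁ : DD (T.P m) (T.P m + 1) →⋆ₐ[ℂ] E :=
    ((mapU ω ιA).comp σ).codRestrict E fun d => memE (fun a => by
        rw [hconst]
        exact ((mem_central ω).1 (hσm d).1 a).map (mapU ω ιA))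
      fun g hg => (hJβ g (σ d)).trans (congrArg (mapU ω ιA) ((hσm d).2 g hg))
  let ρ₂ : DD (T.P m) (T.P m + 1) →⋆ₐ[ℂ] E :=
    (((constHom ω).comp ιB).comp (T.emb m)).codRestrict E fun d => memE
      (fun a => (hcomm a (T.emb m d)).map (constHom ω))
      fun g _ => by
        show actU ω β g (constSeq ω (ιB (T.emb m d))) = constSeq ω (ιB (T.emb m d))
        rw [actU, mapU_constSeq]
        exact congrArg (constSeq ω) (hβB g _)
  have hρ : ∀ d d', Commute (ρ₁ d) (ρ₂ d') := fun d d' => by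
    refine Subtype.ext ?_
    show mapU ω ιA (σ d) * constHom ω (ιB (T.emb m d')) =
      constHom ω (ιB (T.emb m d')) * mapU ω ιA (σ d)
    obtain ⟨s, hs⟩ := cls_surjective ω (σ d)
    rw [← hs, mapU_cls, constHom_apply, constSeq, ← map_mul, ← map_mul]
    congr 1
    ext k
    exact hcomm (s k) (T.emb m d')
  obtain ⟨k, -, hPm⟩ := T.pow m
  obtain ⟨π, hπ⟩ := hU (T.P m) (T.P m + 1) (by rw [hPm]; positivity) (by omega) E ρ₁ ρ₂ hρ
  have := isClosed_DD2 (T.P m) (T.P m + 1)
  letI : CStarAlgebra (DD2 (T.P m) (T.P m + 1)) := StarSubalgebra.cstarAlgebra _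
  have huu : u ∈ unitary (DD2 (T.P m) (T.P m + 1)) :=
    Unitary.mem_iff.2 ⟨Subtype.ext (Unitary.mem_iff.1 hu).1, Subtype.ext (Unitary.mem_iff.1 hu).2⟩
  let π' : DD2 (T.P m) (T.P m + 1) →⋆ₐ[ℂ] Ultrapower R ω := E.subtype.comp π
  have hv : π' u ∈ unitary (Ultrapower R ω) := Unitary.map_mem π' huu
  refine ⟨π' u, hv, fun a => ((StarSubalgebra.mem_centralizer_iff ℂ).1 (π u).2.1 _ ⟨a, rfl⟩).1,
    fun g hg => (π u).2.2 ⟨g, hg⟩, fun b hb => ?_⟩
  obtain ⟨g, hg, hg'⟩ := hflip _ (Finset.mem_image_of_mem f' hb)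
  let G1 : DD2 (T.P m) (T.P m + 1) := ⟨inc1 g, inc1_mem g⟩
  let G2 : DD2 (T.P m) (T.P m + 1) := ⟨inc2 g, inc2_mem g⟩
  refine ⟨σ g, conj_est hv (rot_est π' u G1 G2 _ (constHom ω (ιB (T.emb m g))) (δ / 2) ?_ ?_ hg') ?_⟩
  · exact congrArg Subtype.val ((hπ g G1).1 rfl)
  · exact congrArg Subtype.val ((hπ g G2).2 rfl)
  · rw [hg, hf' b hb]
    refine le_trans ?_ (le_of_eq_of_le (norm_sub_rev _ _) (hf b))
    rw [← map_sub, ← map_sub]
    exact (NonUnitalStarAlgHom.norm_apply_le (constHom (A := R) ω) _).trans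
      (NonUnitalStarAlgHom.norm_apply_le ιB _)

/-- Equivariant absorption for an algebra generated by commuting copies of `A` and `B`. -/
theorem equi_core (hU : UnivStmt) [TopologicalSpace.SeparableSpace A] [Countable G]
    (ω : Ultrafilter ℕ) (T : Tower B) (α : G →* (A ≃⋆ₐ[ℂ] A))
    (hσ : ∀ (S : Finset G) (m : ℕ), ∃ σ : DD (T.P m) (T.P m + 1) →⋆ₐ[ℂ] Ultrapower A ω,
      ∀ d, σ d ∈ Central A ω ∧ ∀ g ∈ S, actU ω α g (σ d) = σ d)
    (ιA : A →⋆ₐ[ℂ] R) (ιB : B →⋆ₐ[ℂ] R) (hA : Function.Injective ιA)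
    (hcomm : ∀ a b, Commute (ιA a) (ιB b))
    (hgen : Dense ((StarAlgebra.adjoin ℂ (Set.range ιA ∪ Set.range ιB) : StarSubalgebra ℂ R) :
      Set R))
    (β : G →* (R ≃⋆ₐ[ℂ] R)) (hβA : ∀ g a, β g (ιA a) = ιA (α g a))
    (hβB : ∀ g b, β g (ιB b) = ιB b) :
    ∃ (Φ : A ≃⋆ₐ[ℂ] R) (u : G → R), (∀ g, star (u g) * u g = 1 ∧ u g * star (u g) = 1) ∧
      (∀ g h, u (g * h) = u g * β g (u h)) ∧
      ∀ g a, Φ (α g a) = u g * β g (Φ a) * star (u g) := by
  classical
  have := separableSpace_tower T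
  have : TopologicalSpace.SeparableSpace R := by
    rw [← TopologicalSpace.isSeparable_univ_iff, ← hgen.closure_eq]
    refine TopologicalSpace.IsSeparable.closure ?_
    obtain ⟨c, hc, hcd⟩ := (isSeparable_range_hom ιA).union (isSeparable_range_hom ιB)
    refine ((isSeparable_adjoin hc).closure).mono ?_
    have : ((StarAlgebra.adjoin ℂ c).topologicalClosure : Set R) =
        closure (StarAlgebra.adjoin ℂ c : Set R) := StarSubalgebra.topologicalClosure_coe _
    rw [← this]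
    refine SetLike.coe_subset_coe.2 (StarAlgebra.adjoin_le (hcd.trans ?_))
    rw [this]
    exact closure_mono (StarAlgebra.subset_adjoin ℂ c)
  choose v hv hvA hvG hvB using fun i : Finset B × Finset G × ℕ =>
    exists_rot_fixed hU ω T α i.2.1 (hσ i.2.1) ιA ιB hcomm β hβA hβB i.1 (1 / ((i.2.2 : ℝ) + 1))
      (by positivity)
  let c : R →⋆ₐ[ℂ] Ultrapower R ω := constHom ω
  let J : Ultrapower A ω →⋆ₐ[ℂ] Ultrapower R ω := mapU ω ιA
  let Φ : Finset B × Finset G × ℕ → R → Ultrapower R ω := fun i x => star (v i) * c x * v i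
  have hΦn : ∀ i x, ‖Φ i x‖ ≤ ‖x‖ := fun i x => by
    rw [CStarRing.norm_mul_mem_unitary _ (hv i),
      CStarRing.norm_mem_unitary_mul _ (Unitary.star_mem (hv i))]
    exact NonUnitalStarAlgHom.norm_apply_le c x
  let Good : R → Prop := fun x => ∀ ε : ℝ, 0 < ε → ∀ᶠ i in atTop, ∃ y, ‖Φ i x - J y‖ ≤ ε
  have hgenA : ∀ a, Good (ιA a) := fun a ε hε => Eventually.of_forall fun i => by
    refine ⟨constSeq ω a, ?_⟩
    rw [show Φ i (ιA a) = c (ιA a) by
      simp only [Φ]
      rw [mul_assoc, (hvA i a).eq, ← mul_assoc, (Unitary.mem_iff.1 (hv i)).1, one_mul]]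
    simp only [J, c, mapU_constSeq, constHom_apply, sub_self, norm_zero]
    exact hε.le
  have hgenB : ∀ b, Good (ιB b) := fun b ε hε => by
    obtain ⟨K, hK⟩ := exists_nat_one_div_lt hε
    filter_upwards [eventually_ge_atTop (({b}, ∅, K) : Finset B × Finset G × ℕ)] with i hi
    obtain ⟨y, hy⟩ := hvB i b (hi.1 (Finset.mem_singleton_self b))
    refine ⟨y, hy.trans (le_trans ?_ hK.le)⟩
    have h2 : (K : ℝ) ≤ i.2.2 := Nat.cast_le.2 hi.2.2
    gcongr
  have hmul : ∀ x y, Good x → Good y → Good (x * y) := by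
    intro x y hx hy ε hε
    set η := min 1 (ε / (‖x‖ + ‖y‖ + 1))
    have hη : 0 < η := lt_min one_pos (by positivity)
    filter_upwards [hx η hη, hy η hη] with i ⟨p, hp⟩ ⟨q, hq⟩
    refine ⟨p * q, ?_⟩
    have e : Φ i (x * y) = Φ i x * Φ i y := by
      simp only [Φ, map_mul, mul_assoc]
      rw [← mul_assoc (v i) (star (v i)), (Unitary.mem_iff.1 (hv i)).2, one_mul]
    have hp' : ‖J p‖ ≤ ‖x‖ + η := by
      linarith [norm_le_insert (Φ i x) (J p), hΦn i x]
    calc ‖Φ i (x * y) - J (p * q)‖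
        = ‖(Φ i x - J p) * Φ i y + J p * (Φ i y - J q)‖ := by
          rw [e, map_mul]; congr 1; noncomm_ring
      _ ≤ η * ‖y‖ + (‖x‖ + η) * η := by
          refine (norm_add_le _ _).trans (add_le_add ?_ ?_)
          · exact (norm_mul_le _ _).trans (mul_le_mul hp (hΦn i y) (norm_nonneg _) hη.le)
          · exact (norm_mul_le _ _).trans (mul_le_mul hp' hq (norm_nonneg _) (by positivity))
      _ ≤ η * (‖x‖ + ‖y‖ + 1) := by
          nlinarith [min_le_left (1 : ℝ) (ε / (‖x‖ + ‖y‖ + 1)), hη]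
      _ ≤ ε := by
          rw [← le_div_iff₀ (by positivity)]
          exact min_le_right _ _
  have hgood : ∀ x, Good x := by
    intro x ε hε
    obtain ⟨x', hx', hd⟩ := Metric.mem_closure_iff.1 (hgen x) (ε / 2) (half_pos hε)
    have hx'g : Good x' := by
      clear hd
      induction hx' using StarAlgebra.adjoin_induction with
      | mem z hz =>
        rcases hz with ⟨a, rfl⟩ | ⟨b, rfl⟩
        · exact hgenA a
        · exact hgenB b
      | algebraMap r =>
        have := hgenA (algebraMap ℂ A r)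
        rwa [AlgHomClass.commutes] at this
      | add z w _ _ hz hw =>
        intro η hη
        filter_upwards [hz (η / 2) (half_pos hη), hw (η / 2) (half_pos hη)] with i ⟨p, hp⟩ ⟨q, hq⟩
        refine ⟨p + q, ?_⟩
        rw [show Φ i (z + w) - J (p + q) = (Φ i z - J p) + (Φ i w - J q) by
          simp only [Φ, map_add, mul_add, add_mul]; abel]
        linarith [norm_add_le (Φ i z - J p) (Φ i w - J q)]
      | mul z w _ _ hz hw => exact hmul z w hz hw
      | star z _ hz =>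
        intro η hη
        filter_upwards [hz η hη] with i ⟨p, hp⟩
        refine ⟨star p, ?_⟩
        rw [show Φ i (star z) - J (star p) = star (Φ i z - J p) by
          simp only [Φ, map_star, star_sub, star_mul, star_star, mul_assoc], norm_star]
        exact hp
    filter_upwards [hx'g (ε / 2) (half_pos hε)] with i ⟨p, hp⟩
    refine ⟨p, ?_⟩
    have h2 : ‖Φ i x - Φ i x'‖ ≤ ε / 2 := by
      rw [show Φ i x - Φ i x' = Φ i (x - x') by simp only [Φ, map_sub, mul_sub, sub_mul]]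
      exact (hΦn i _).trans (by rw [← dist_eq_norm]; exact hd.le)
    linarith [norm_sub_le_norm_sub_add_norm_sub (Φ i x) (Φ i x') (J p)]
  refine exists_cocycle_equiv_of_approx ιA hA β (fun g a => α g a) hβA fun F X S ε hε => ?_
  obtain ⟨i, hiS, hi⟩ := ((eventually_ge_atTop ((∅, S, 0) : Finset B × Finset G × ℕ)).and
    ((eventually_all_finset X).2 fun x _ => hgood x (ε / 4) (by linarith))).exists
  obtain ⟨f, hf⟩ := cls_surjective ω (v i)
  have hf1 : Tendsto (fun n => ‖star (f n) * f n - 1‖) ω (𝓝 0) :=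
    tendsto_of_cls_eq (a := star f * f) (b := 1)
      (by rw [map_mul, map_one, ← star_cls, hf, (Unitary.mem_iff.1 (hv i)).1])
  have hf2 : Tendsto (fun n => ‖f n * star (f n) - 1‖) ω (𝓝 0) :=
    tendsto_of_cls_eq (a := f * star f) (b := 1)
      (by rw [map_mul, map_one, ← star_cls, hf, (Unitary.mem_iff.1 (hv i)).2])
  have hex : ∀ n, ∃ u ∈ unitary R, ‖star (f n) * f n - 1‖ ≤ 1 / 2 →
      ‖f n * star (f n) - 1‖ ≤ 1 / 2 → ‖u - f n‖ ≤ 2 * ‖f n‖ * ‖star (f n) * f n - 1‖ := by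
    intro n
    by_cases h : ‖star (f n) * f n - 1‖ ≤ 1 / 2 ∧ ‖f n * star (f n) - 1‖ ≤ 1 / 2
    · obtain ⟨u, hu, hu'⟩ := exists_unitary_near (f n) h.1 h.2
      exact ⟨u, hu, fun _ _ => hu'⟩
    · exact ⟨1, Submonoid.one_mem _, fun h1 h2 => absurd ⟨h1, h2⟩ h⟩
  choose U hU1 hU2 using hex
  have hd : Tendsto (fun n => ‖U n - f n‖) ω (𝓝 0) := by
    refine squeeze_zero' (Eventually.of_forall fun n => norm_nonneg _) ?_
      (by simpa using hf1.const_mul (2 * ‖f‖))
    filter_upwards [hf1.eventually (eventually_le_nhds (by norm_num : (0 : ℝ) < 1 / 2)),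
      hf2.eventually (eventually_le_nhds (by norm_num : (0 : ℝ) < 1 / 2))] with n h1 h2
    refine (hU2 n h1 h2).trans ?_
    gcongr
    exact f.norm_coe_le_norm n
  have hcA : ∀ a, ∀ᶠ n in (ω : Filter ℕ), ‖U n * ιA a - ιA a * U n‖ ≤ ε := fun a => by
    have h0 : Tendsto (fun n => ‖f n * ιA a - ιA a * f n‖) ω (𝓝 0) :=
      tendsto_of_commute_cls ω (f := f) (g := BoundedContinuousFunction.const ℕ (ιA a))
        (by rw [hf]; exact (hvA i a).symm)
    have h1 : Tendsto (fun n => ‖f n * ιA a - ιA a * f n‖ + ‖U n - f n‖ * (2 * ‖ιA a‖)) ω (𝓝 0) :=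
      by simpa using h0.add (hd.mul_const (2 * ‖ιA a‖))
    filter_upwards [h1.eventually (eventually_le_nhds hε)] with n hn
    refine le_trans ?_ hn
    calc ‖U n * ιA a - ιA a * U n‖
        = ‖(f n * ιA a - ιA a * f n) + ((U n - f n) * ιA a - ιA a * (U n - f n))‖ := by
          congr 1; noncomm_ring
      _ ≤ _ := by
          refine (norm_add_le _ _).trans (add_le_add le_rfl ((norm_sub_le _ _).trans ?_))
          linarith [norm_mul_le (U n - f n) (ιA a), norm_mul_le (ιA a) (U n - f n)]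
  have hcβ : ∀ g ∈ S, ∀ᶠ n in (ω : Filter ℕ), ‖β g (U n) - U n‖ ≤ ε := by
    intro g hg
    have h0 : Tendsto (fun n => ‖β g (f n) - f n‖) ω (𝓝 0) :=
      tendsto_of_cls_eq (a := bmap (StarAlgHomClass.toStarAlgHom (β g)) f) (b := f)
        (by rw [← actU_cls, hf]; exact hvG i g (hiS.2.1 hg))
    have h1 : Tendsto (fun n => ‖β g (f n) - f n‖ + 2 * ‖U n - f n‖) ω (𝓝 0) := by
      simpa using h0.add (hd.const_mul 2)
    filter_upwards [h1.eventually (eventually_le_nhds hε)] with n hn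
    refine le_trans ?_ hn
    calc ‖β g (U n) - U n‖ = ‖(β g (f n) - f n) + (β g (U n - f n) - (U n - f n))‖ := by
          rw [map_sub]; congr 1; abel
      _ ≤ _ := by
          refine (norm_add_le _ _).trans (add_le_add le_rfl ((norm_sub_le _ _).trans ?_))
          linarith [NonUnitalStarAlgHom.norm_apply_le (β g) (U n - f n)]
  have hcG : ∀ x ∈ X, ∀ᶠ n in (ω : Filter ℕ), ∃ a, ‖star (U n) * x * U n - ιA a‖ ≤ ε := by
    intro x hx
    obtain ⟨y, hy⟩ := hi x hx
    obtain ⟨g, rfl⟩ := cls_surjective ω y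
    have hlim : limNorm ω (star f * BoundedContinuousFunction.const ℕ x * f - bmap ιA g) ≤
        ε / 4 := by
      rw [← norm_cls, map_sub, map_mul, map_mul, ← star_cls, hf, ← mapU_cls]
      exact hy
    have h1 : Tendsto (fun n => ‖U n - f n‖ * ‖x‖ * (‖U n - f n‖ + 2 * ‖f‖)) ω (𝓝 0) := by
      simpa using (hd.mul_const ‖x‖).mul (hd.add_const (2 * ‖f‖))
    filter_upwards [h1.eventually (eventually_le_nhds (half_pos hε)),
      (tendsto_limNorm ω (star f * BoundedContinuousFunction.const ℕ x * f - bmap ιA g)).eventually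
        (eventually_le_nhds (show _ < ε / 2 by linarith))] with n hn hm
    refine ⟨g n, ?_⟩
    replace hm : ‖star (f n) * x * f n - ιA (g n)‖ ≤ ε / 2 := hm
    have hU' : ‖U n‖ ≤ ‖U n - f n‖ + ‖f‖ := by
      linarith [norm_le_insert' (U n) (f n), f.norm_coe_le_norm n]
    calc ‖star (U n) * x * U n - ιA (g n)‖
        = ‖(star (f n) * x * f n - ιA (g n)) +
            (star (U n - f n) * x * U n + star (f n) * x * (U n - f n))‖ := by
          congr 1; rw [star_sub]; noncomm_ring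
      _ ≤ ε / 2 + (‖U n - f n‖ * ‖x‖ * ‖U n‖ + ‖f n‖ * ‖x‖ * ‖U n - f n‖) := by
          refine (norm_add_le _ _).trans (add_le_add hm ((norm_add_le _ _).trans
            (add_le_add ?_ ?_))) <;>
          refine (norm_mul₃_le).trans (le_of_eq ?_) <;> rw [norm_star]
      _ ≤ ε := by
          nlinarith [norm_nonneg (U n - f n), norm_nonneg x, f.norm_coe_le_norm n,
            mul_nonneg (norm_nonneg (U n - f n)) (norm_nonneg x)]
  obtain ⟨n, ⟨hnF, hnS⟩, hnG⟩ := ((((eventually_all_finset F).2 fun a _ => hcA a).and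
    ((eventually_all_finset S).2 hcβ)).and ((eventually_all_finset X).2 hcG)).exists
  exact ⟨U n, hU1 n, hnF, hnS, hnG⟩

end

end Vale.P095.Equi
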