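import Vale.Agent.P101.ZStab.Defs

/-!
# P095: cocycle conjugacy of an action with its stabilisation

`IsEquiStable A B α` says that `α` is cocycle conjugate to the action `α ⊗ id` on the minimal tensor
product `A ⊗ B`: on the algebra generated by `π a ⊗ 1` and `1 ⊗ ρ b` for faithful representations
there is an action `β` with `β g (π a ⊗ 1) = π (α g a) ⊗ 1` fixing every `1 ⊗ ρ b`, an isomorphism
`Φ` from `A` and a `β`-cocycle `u` of unitaries with `Φ (α g a) = u g * β g (Φ a) * (u g)*`.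
-/

namespace Vale.P095.Equi

open Vale.P101.ZS

noncomputable section

/-- `α` is cocycle conjugate to `α ⊗ id` on the minimal tensor product `A ⊗ B`. -/
def IsEquiStable (A B : Type) [CStarAlgebra A] [CStarAlgebra B] {G : Type} [Group G]
    (α : G →* (A ≃⋆ₐ[ℂ] A)) : Prop :=
  ∃ (H K : Type) (_ : NormedAddCommGroup H) (_ : InnerProductSpace ℂ H) (_ : CompleteSpace H)
    (_ : NormedAddCommGroup K) (_ : InnerProductSpace ℂ K) (_ : CompleteSpace K)
    (π : A →⋆ₐ[ℂ] (H →L[ℂ] H)) (ρ : B →⋆ₐ[ℂ] (K →L[ℂ] K))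
    (β : G →* (spatial π ρ ≃⋆ₐ[ℂ] spatial π ρ))
    (Φ : A ≃⋆ₐ[ℂ] spatial π ρ) (u : G → spatial π ρ),
    Function.Injective π ∧ Function.Injective ρ ∧
    (∀ g a (x : spatial π ρ), x.1 = ampLeft (π a) → (β g x).1 = ampLeft (π (α g a))) ∧
    (∀ g b (x : spatial π ρ), x.1 = ampRight (ρ b) → β g x = x) ∧
    (∀ g, star (u g) * u g = 1 ∧ u g * star (u g) = 1) ∧
    (∀ g h, u (g * h) = u g * β g (u h)) ∧
    ∀ g a, Φ (α g a) = u g * β g (Φ a) * star (u g)

end

end Vale.P095.Equi
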