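import Vale.Agent.P095.Equi.Com
import Vale.Agent.P101.ZStab.Limit
import Vale.Agent.P101.ZStab.Band
import Vale.Agent.P101.ZStab.IntBasic
import Vale.Agent.P101.ZStab.IntConn
import Vale.Agent.P101.ZStab.Flip

/-!
# P095: the limit algebra with almost central witnesses against characters

The construction of the module `ZStab/Limit` with one more requirement on every connecting map.
-/

open scoped Kronecker Matrix.Norms.L2Operator
open TopologicalSpace

namespace Vale.P095.Equi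

open Vale.P101 Vale.P101.ZS Vale.P101.ZS.Lim

noncomputable section

namespace BigLim

/-- Witnesses survive perturbations. -/
theorem witness_mono {P Q : ℕ} {S S' : Set (DD P Q)} {ε η δ : ℝ} (h : ComWitness S η)
    (hS : ∀ f ∈ S', ∃ g ∈ S, ‖f - g‖ ≤ δ) (hε : η + 20000 * δ ≤ ε) : ComWitness S' ε := by
  obtain ⟨x, z, hx, hz, he, hc⟩ := h
  refine ⟨x, z, hx, hz, he, fun i f hf => ?_⟩
  obtain ⟨g, hg, hfg⟩ := hS f hf
  have hfg' : ‖f.1 - g.1‖ ≤ δ := hfg
  rw [show (x i).1 * f.1 - f.1 * (x i).1 = ((x i).1 * g.1 - g.1 * (x i).1) +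
      ((x i).1 * (f.1 - g.1) - (f.1 - g.1) * (x i).1) by simp only [mul_sub, sub_mul]; abel]
  refine (norm_add_le _ _).trans ((add_le_add (hc i g hg) ((norm_sub_le _ _).trans
    (add_le_add (norm_mul_le _ _) (norm_mul_le _ _)))).trans ?_)
  have h1 := mul_le_mul (hx i) hfg' (norm_nonneg _) (by norm_num : (0 : ℝ) ≤ 10000)
  linarith

/-- A step from a stage, with witnesses. -/
structure NextC (m : ℕ) (S : Stage) extends Next m S where
  com : ComWitness (φ '' {f | ∃ k < 4 ^ m, S.g k = f}) (1 / (m + 1))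

theorem exists_next (hF : FlipStmt) (hC : ComStmt) (m : ℕ) (S : Stage) :
    Nonempty (NextC m S) := by
  classical
  obtain ⟨p, hp, g⟩ := S
  have hp2 := two_le_of_pow hp
  obtain ⟨j, hj, rfl⟩ := hp
  set F := (Finset.range (4 ^ m)).image g
  set ε : ℝ := 1 / (m + 1)
  have hε : 0 < ε := by positivity
  have hev : ∀ᶠ r in nhds (0 : ℝ), ∀ f ∈ F, ∀ x y : ℝ, |x - y| ≤ r →
      ‖StepMap.ext f x - StepMap.ext f y‖ ≤ ε := by
    rw [Finset.eventually_all]
    intro f _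
    have huc : UniformContinuous (StepMap.ext f) :=
      (CompactSpace.uniformContinuous_of_continuous f.1.continuous).comp
        (LipschitzWith.projIcc _).uniformContinuous
    obtain ⟨δ, hδ, hd⟩ := Metric.uniformContinuous_iff.1 huc ε hε
    filter_upwards [Metric.ball_mem_nhds 0 hδ] with r hr x y hxy
    rw [mem_ball_zero_iff, Real.norm_eq_abs] at hr
    rw [← dist_eq_norm]
    exact (hd (lt_of_le_of_lt (le_of_eq (Real.dist_eq x y))
      (hxy.trans_lt ((le_abs_self r).trans_lt hr)))).le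
  have hto : Filter.Tendsto (fun l : ℕ => (6 : ℝ) / ((l : ℝ) + 1)) Filter.atTop (nhds 0) := by
    simpa [div_eq_mul_inv] using
      (tendsto_one_div_add_atTop_nhds_zero_nat (𝕜 := ℝ)).const_mul (6 : ℝ)
  obtain ⟨L₀, hL₀⟩ := Filter.eventually_atTop.1 (hto.eventually hev)
  obtain ⟨L₁, hL₁⟩ := hF _ hp2 F ε hε
  obtain ⟨L₂, hL₂⟩ := hC _ hp2 F ε hε
  set q := 2 ^ j + 1 with hq
  set L := max (max L₀ L₁) (max L₂ 3)
  set t := L * q + 1 with ht
  have hdvd : q ∣ (2 ^ j) ^ (2 * t) - 1 := by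
    rw [pow_mul]
    refine Dvd.dvd.trans ⟨2 ^ j - 1, ?_⟩ (Nat.sub_one_dvd_pow_sub_one ((2 ^ j) ^ 2) t)
    rw [hq, ← Nat.sq_sub_sq]
  obtain ⟨l, hl⟩ := hdvd
  have hpow : (2 ^ j) ^ (2 * t) = 1 + q * l := by
    have : 1 ≤ (2 ^ j) ^ (2 * t) := Nat.one_le_pow _ _ (by positivity)
    omega
  have hLl : L ≤ l := by
    by_contra hc
    have h1 : 2 * t < (2 ^ j) ^ (2 * t) :=
      lt_of_lt_of_le Nat.lt_two_pow_self
        (Nat.pow_le_pow_left (le_trans (by norm_num) (Nat.pow_le_pow_right (by norm_num) hj)) _)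
    have h2 : q * l ≤ q * L := Nat.mul_le_mul le_rfl (not_le.1 hc).le
    rw [hpow, ht] at h1
    nlinarith [h1, h2]
  simp only [L, max_le_iff] at hLl
  obtain ⟨σ, U, φ, h, hinj⟩ := stepMap.2.2 _ l hp2 hLl.2.2
  obtain ⟨u, hu, hflip⟩ := hL₁ l hLl.1.2 σ U φ h
  have hcom := hL₂ l hLl.2.1 σ U φ h
  have hP : ∃ k, 1 ≤ k ∧ nextP (2 ^ j) l = 2 ^ k := by
    refine ⟨j + j * (2 * t), by omega, ?_⟩
    rw [nextP, pow_add, pow_mul, hpow]
  refine ⟨⟨⟨⟨nextP (2 ^ j) l, hP, fun k => if k % 2 = 0 then denseSeq _ (k / 2) else φ (g (k / 2))⟩,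
    φ, hinj, ⟨u, hu, fun k hk => ?_⟩, fun k => ?_, fun k => ?_⟩, ?_⟩⟩
  · have hmem : g k ∈ F := Finset.mem_image_of_mem g (Finset.mem_range.2 hk)
    refine ⟨fun s s' => StepMap.ntr_close (by omega) h _ ε
      (fun x y hxy => hL₀ l hLl.1.1 _ hmem x y (hxy.trans (by gcongr; norm_num))) s s',
      fun s => ?_, hflip _ hmem⟩
    have := StepMap.norm_close (by omega) h _ ε (hL₀ l hLl.1.1 _ hmem) s
    change ‖(g k).1‖ - ε ≤ _
    linarith
  · have h1 : (2 * k + 1) % 2 = 1 := by omega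
    have h2 : (2 * k + 1) / 2 = k := by omega
    simp [h1, h2]
  · have h1 : (2 * k) % 2 = 0 := by omega
    have h2 : (2 * k) / 2 = k := by omega
    simp [h2]
  · refine witness_mono hcom (δ := 0) ?_ (by simp [ε])
    rintro _ ⟨_, ⟨k, hk, rfl⟩, rfl⟩
    exact ⟨φ (g k), ⟨g k, Finset.mem_image_of_mem g (Finset.mem_range.2 hk), rfl⟩, by simp⟩

variable (hF : FlipStmt) (hC : ComStmt)

/-- The stages. -/
def stage : ℕ → Stage
  | 0 => ⟨2, ⟨1, le_rfl, by norm_num⟩, denseSeq (Dp 2)⟩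
  | m + 1 => (Classical.choice (exists_next hF hC m (stage m))).T

/-- The step from a stage to the next one. -/
def next (m : ℕ) : NextC m (stage hF hC m) := Classical.choice (exists_next hF hC m _)

/-- The sizes of the stages. -/
abbrev chainP (m : ℕ) : ℕ := (stage hF hC m).p

/-- The connecting maps of the stages. -/
def chainMap (m : ℕ) : Dp (chainP hF hC m) →⋆ₐ[ℂ] Dp (chainP hF hC (m + 1)) :=
  (next hF hC m).φ

theorem tr_g {i n : ℕ} (h : i ≤ n) (k : ℕ) :
    ∃ k', k' + 1 = (k + 1) * 2 ^ (n - i) ∧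
      tr (chainP hF hC) (chainMap hF hC) i n h ((stage hF hC i).g k) =
        (stage hF hC n).g k' := by
  induction n, h using Nat.le_induction with
  | base => exact ⟨k, by simp, tr_self i _⟩
  | succ n hn ih =>
    obtain ⟨k', hk', e⟩ := ih
    refine ⟨2 * k' + 1, ?_, ?_⟩
    · rw [Nat.succ_sub hn, pow_succ, ← mul_assoc, ← hk']
      ring
    · rw [tr_succ hn, e]
      exact ((next hF hC n).odd k').symm

theorem exists_near (i : ℕ) (f : Dp (chainP hF hC i)) {ε : ℝ} (hε : 0 < ε) :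
    ∃ k, ‖f - (stage hF hC i).g k‖ < ε := by
  cases i with
  | zero =>
    have h : ∀ f : Dp 2, ∃ k, ‖f - denseSeq (Dp 2) k‖ < ε := fun f => by
      obtain ⟨k, hk⟩ := (denseRange_denseSeq (Dp 2)).exists_dist_lt f hε
      exact ⟨k, by rwa [← dist_eq_norm]⟩
    exact h f
  | succ i =>
    have h : ∀ f : Dp (next hF hC i).T.p, ∃ k, ‖f - (next hF hC i).T.g k‖ < ε := fun f => by
      obtain ⟨k, hk⟩ := (denseRange_denseSeq (Dp (next hF hC i).T.p)).exists_dist_lt f hε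
      exact ⟨2 * k, by rwa [← dist_eq_norm, (next hF hC i).even k]⟩
    exact h f

/-- Late connecting maps are good on approximants of a finite set. -/
theorem exists_late (i : ℕ) (F : Finset (Dp (chainP hF hC i))) (ε : ℝ) (hε : 0 < ε) :
    ∃ (n : ℕ) (hin : i ≤ n), (1 : ℝ) / (n + 1) ≤ ε ∧ ∀ f ∈ F, ∃ k < 4 ^ n,
      ‖tr (chainP hF hC) (chainMap hF hC) i n hin f - (stage hF hC n).g k‖ ≤ ε := by
  choose k hk using fun f => exists_near hF hC i f hε
  obtain ⟨n, hin, hsup, hceil⟩ : ∃ n, i ≤ n ∧ F.sup k + 1 ≤ n ∧ ⌈1 / ε⌉₊ ≤ n :=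
    ⟨i + (F.sup k + 1) + ⌈1 / ε⌉₊, by omega, by omega, by omega⟩
  refine ⟨n, hin, ?_, fun f hf => ?_⟩
  · have h1 : 1 / ε ≤ (n : ℝ) := (Nat.le_ceil _).trans (Nat.cast_le.2 hceil)
    rw [div_le_iff₀ (by positivity)]
    rw [div_le_iff₀ hε] at h1
    nlinarith
  · obtain ⟨k', hk', e⟩ := tr_g hF hC hin (k f)
    refine ⟨k', ?_, ?_⟩
    · have h1 : k f + 1 ≤ 2 ^ n :=
        le_trans (by have := Finset.le_sup (f := k) hf; omega) (Nat.lt_two_pow_self (n := n)).le
      have h2 : 2 ^ (n - i) ≤ 2 ^ n := Nat.pow_le_pow_right (by norm_num) (Nat.sub_le _ _)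
      have h3 : (4 : ℕ) ^ n = 2 ^ n * 2 ^ n := by rw [← mul_pow]; norm_num
      have := Nat.mul_le_mul h1 h2
      omega
    · rw [← e, ← map_sub]
      exact (norm_hom_le _ _).trans (hk f).le

/-- The chain. -/
def chain : Chain where
  P := chainP hF hC
  pow n := (stage hF hC n).pow
  φ := chainMap hF hC
  inj n := (next hF hC n).inj
  good i F ε hε := by
    obtain ⟨n, hin, hn, hk⟩ := exists_late hF hC i F (ε / 3) (by linarith)
    obtain ⟨u, hu, hgood⟩ := (next hF hC n).good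
    refine ⟨n, hin, u, hu, fun f hf => ?_⟩
    obtain ⟨k, hk4, hfk⟩ := hk f hf
    obtain ⟨a, b, c⟩ := hgood k hk4
    have hg : Nice (chainMap hF hC n) u (ε / 3) ((stage hF hC n).g k) :=
      ⟨fun s s' => (a s s').trans hn, fun s => le_trans (by linarith) (b s), c.trans hn⟩
    exact hg.approx hu hfk (by linarith)

theorem chain_witness (i : ℕ) (F : Finset (Dp (chainP hF hC i))) (ε : ℝ) (hε : 0 < ε) :
    ∃ (n : ℕ) (hin : i ≤ n), ComWitness
      (chainMap hF hC n '' (tr (chainP hF hC) (chainMap hF hC) i n hin '' (F : Set _))) ε := by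
  obtain ⟨n, hin, hn, hk⟩ := exists_late hF hC i F (ε / 20001) (by linarith)
  refine ⟨n, hin, witness_mono (next hF hC n).com ?_ (δ := ε / 20001) (by linarith)⟩
  rintro _ ⟨_, ⟨f, hf, rfl⟩, rfl⟩
  obtain ⟨k, hk4, hfk⟩ := hk f hf
  refine ⟨chainMap hF hC n ((stage hF hC n).g k), ⟨_, ⟨k, hk4, rfl⟩, rfl⟩, ?_⟩
  rw [← map_sub]
  exact (norm_hom_le _ _).trans hfk

end BigLim

open BigLim

/-- `BigTowerStmt`. -/
theorem bigTower : BigTowerStmt := by
  intro hC
  have hF : FlipStmt := ZS.flip intNorm (intConn bandStmt) stepMap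
  let c := chain hF hC
  refine ⟨LimAlg c, inferInstance, Lim.tower c, Lim.isJiangSu c, fun i F ε hε => ?_⟩
  obtain ⟨n, hin, hw⟩ := chain_witness hF hC i F ε hε
  refine ⟨n + 1, hin.trans n.le_succ, witness_mono hw (δ := 0) ?_ (by simp)⟩
  rintro g ⟨f, hf, hg⟩
  refine ⟨_, ⟨_, ⟨f, hf, rfl⟩, rfl⟩, ?_⟩
  have e : g = chainMap hF hC n (tr (chainP hF hC) (chainMap hF hC) i n hin f) := by
    refine Lim.emb_injective c (n + 1) (?_ : emb c (n + 1) g = _)
    rw [show emb c (n + 1) g = emb c i f from hg, ← emb_tr c (hin.trans n.le_succ) f]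
    exact congrArg _ (tr_succ hin _ f)
  exact le_of_eq (norm_eq_zero.2 (sub_eq_zero.2 e))

end

end Vale.P095.Equi
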