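import Vale.Agent.P095.Equi.Pins
import Vale.Agent.P101.ZStab.Absorb

/-!
# P095: absorbing a witnessed algebra removes the characters

The witnesses of the stages give two elements of the central sequence algebra whose self-commutators
have squares summing to something invertible, and a character vanishes on those.
-/

open scoped Kronecker Matrix.Norms.L2Operator BoundedContinuousFunction
open Filter Topology

namespace Vale.P095.Equi

open Vale.P101 Vale.P101.ZS

noncomputable section

namespace NC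

/-- An element commuting with the images of generators commutes with all images. -/
theorem commute_of_gen {S E : Type*} [CStarAlgebra S] [CStarAlgebra E] (c : S →⋆ₐ[ℂ] E) {s : Set S}
    (hs : Dense ((StarAlgebra.adjoin ℂ s : StarSubalgebra ℂ S) : Set S)) (x : E)
    (h : ∀ y ∈ s, Commute (c y) x ∧ Commute (c y) (star x)) (y : S) : Commute (c y) x := by
  let C : StarSubalgebra ℂ E := StarSubalgebra.centralizer ℂ {x}
  have hle : StarAlgebra.adjoin ℂ s ≤ C.comap c :=
    StarAlgebra.adjoin_le fun y hy => by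
      show c y ∈ C
      rw [StarSubalgebra.mem_centralizer_iff]
      rintro _ rfl
      exact ⟨(h y hy).1.eq.symm, (h y hy).2.eq.symm⟩
  have hcl : IsClosed ((C.comap c : StarSubalgebra ℂ S) : Set S) := by
    have hcont : Continuous c :=
      (AddMonoidHomClass.lipschitz_of_bound c 1 fun x => by
        simpa using NonUnitalStarAlgHom.norm_apply_le c x).continuous
    rw [StarSubalgebra.coe_comap]
    refine IsClosed.preimage hcont ?_
    rw [StarSubalgebra.coe_centralizer]
    exact Set.isClosed_centralizer _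
  have hy : c y ∈ C :=
    closure_minimal (SetLike.coe_subset_coe.2 hle) hcl (hs y)
  rw [StarSubalgebra.mem_centralizer_iff] at hy
  exact ((hy x rfl).1).symm

/-- The witnesses of the stages, seen in `B`. -/
theorem exists_seq {B : Type} [CStarAlgebra B] (T : Tower B)
    (hw : ∀ (n : ℕ) (F : Finset (DD (T.P n) (T.P n + 1))) (ε : ℝ), 0 < ε → ∃ m, n ≤ m ∧
      ComWitness {g | ∃ f ∈ F, T.emb m g = T.emb n f} ε) :
    ∃ (x : ℕ → Fin 2 → B) (z : ℕ → B), (∀ n i, ‖x n i‖ ≤ 10000) ∧ (∀ n, ‖z n‖ ≤ 10000) ∧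
      (∀ n, z n * ∑ i, (star (x n i) * x n i - x n i * star (x n i)) *
        (star (x n i) * x n i - x n i * star (x n i)) = 1) ∧
      ∀ i b, Tendsto (fun n => ‖x n i * b - b * x n i‖) atTop (𝓝 0) := by
  classical
  have := Absorb.separableSpace_tower T
  let b : ℕ → B := TopologicalSpace.denseSeq B
  have key : ∀ n : ℕ, ∃ (x : Fin 2 → B) (z : B), (∀ i, ‖x i‖ ≤ 10000) ∧ ‖z‖ ≤ 10000 ∧
      z * ∑ i, (star (x i) * x i - x i * star (x i)) * (star (x i) * x i - x i * star (x i)) = 1 ∧
      ∀ i, ∀ k ≤ n, ‖x i * b k - b k * x i‖ ≤ 20001 / ((n : ℝ) + 1) := by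
    intro n
    have hpos : (0 : ℝ) < 1 / ((n : ℝ) + 1) := by positivity
    have hk : ∀ k, ∃ j, ∃ f : DD (T.P j) (T.P j + 1), ‖b k - T.emb j f‖ < 1 / ((n : ℝ) + 1) := by
      intro k
      obtain ⟨y, hy, hd⟩ := Metric.mem_closure_iff.1 (T.dense (b k)) _ hpos
      obtain ⟨j, f, rfl⟩ := Set.mem_iUnion.1 hy
      exact ⟨j, f, by rwa [← dist_eq_norm]⟩
    choose j f hf using hk
    set N := (Finset.range (n + 1)).sup j
    have hN : ∀ k, k ≤ n → ∃ g : DD (T.P N) (T.P N + 1), T.emb N g = T.emb (j k) (f k) :=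
      fun k hk => T.mono (j k) N (Finset.le_sup (Finset.mem_range.2 (by omega))) ⟨f k, rfl⟩
    choose g hg using hN
    obtain ⟨m, hm, x, z, hx, hz, he, hc⟩ := hw N
      ((Finset.range (n + 1)).attach.image fun k : {k // k ∈ Finset.range (n + 1)} =>
        g k.1 (Nat.le_of_lt_succ (Finset.mem_range.1 k.2))) _ hpos
    have := Absorb.isClosed_DD (T.P m) (T.P m + 1)
    let : CStarAlgebra (DD (T.P m) (T.P m + 1)) := StarSubalgebra.cstarAlgebra _
    have hle : ∀ y : DD (T.P m) (T.P m + 1), ‖T.emb m y‖ ≤ ‖y.1‖ :=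
      fun y => NonUnitalStarAlgHom.norm_apply_le (T.emb m) y
    refine ⟨fun i => T.emb m (x i), T.emb m z, fun i => (hle _).trans (hx i), (hle _).trans hz,
      ?_, fun i k hk => ?_⟩
    · simp only [← map_star, ← map_mul, ← map_sub, ← map_sum, he, map_one]
    · obtain ⟨h, hh⟩ := T.mono N m hm ⟨g k hk, rfl⟩
      have h1 : ‖T.emb m (x i) * T.emb m h - T.emb m h * T.emb m (x i)‖ ≤ 1 / ((n : ℝ) + 1) := by
        rw [← map_mul, ← map_mul, ← map_sub]
        exact (hle _).trans (hc i h ⟨g k hk, Finset.mem_image.2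
          ⟨⟨k, Finset.mem_range.2 (by omega)⟩, Finset.mem_attach _ _, rfl⟩, hh⟩)
      have h2 : ‖b k - T.emb m h‖ ≤ 1 / ((n : ℝ) + 1) := by
        rw [show T.emb m h = T.emb (j k) (f k) from hh.trans (hg k hk)]
        exact (hf k).le
      have h3 : ‖T.emb m (x i)‖ ≤ 10000 := (hle _).trans (hx i)
      set X := T.emb m (x i)
      rw [show X * b k - b k * X = (X * T.emb m h - T.emb m h * X) +
          (X * (b k - T.emb m h) - (b k - T.emb m h) * X) by
        simp only [mul_sub, sub_mul]; abel]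
      refine (norm_add_le _ _).trans ((add_le_add h1 ((norm_sub_le _ _).trans
        (add_le_add (norm_mul_le _ _) (norm_mul_le _ _)))).trans ?_)
      have h4 := mul_le_mul h3 h2 (norm_nonneg _) (by norm_num : (0 : ℝ) ≤ 10000)
      have h5 : (20001 : ℝ) / ((n : ℝ) + 1) = 20001 * (1 / ((n : ℝ) + 1)) := by ring
      linarith
  choose x z hx hz he hc using key
  refine ⟨x, z, hx, hz, he, fun i a => ?_⟩
  rw [Metric.tendsto_atTop]
  intro ε hε
  obtain ⟨k, hk⟩ := (TopologicalSpace.denseRange_denseSeq B).exists_dist_lt a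
    (show 0 < ε / 80000 by linarith)
  rw [dist_eq_norm] at hk
  obtain ⟨M, hM⟩ := exists_nat_ge (80000 / ε)
  refine ⟨max k M, fun n hn => ?_⟩
  rw [Real.dist_eq, sub_zero, abs_of_nonneg (norm_nonneg _)]
  have h1 := hc n i k ((le_max_left _ _).trans hn)
  have h2 : 20001 / ((n : ℝ) + 1) ≤ ε / 3 := by
    have hMn : (M : ℝ) ≤ n := Nat.cast_le.2 ((le_max_right _ _).trans hn)
    rw [div_le_iff₀ (by positivity)]
    rw [div_le_iff₀ hε] at hM
    nlinarith
  rw [show x n i * a - a * x n i = (x n i * b k - b k * x n i) +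
      (x n i * (a - b k) - (a - b k) * x n i) by simp only [mul_sub, sub_mul]; abel]
  refine (norm_add_le _ _).trans_lt ((add_le_add (h1.trans h2) ((norm_sub_le _ _).trans
    (add_le_add (norm_mul_le _ _) (norm_mul_le _ _)))).trans_lt ?_)
  have h4 := mul_le_mul (hx n i) hk.le (norm_nonneg _) (by norm_num : (0 : ℝ) ≤ 10000)
  linarith

end NC

open NC in
/-- Commuting generating copies of `A` and of a witnessed `B` in an algebra isomorphic to `A` leave
no characters. -/
theorem noChar_of_gen {A B S : Type} [CStarAlgebra A] [TopologicalSpace.SeparableSpace A]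
    [Nontrivial A] [CStarAlgebra B] [CStarAlgebra S] (T : Tower B)
    (hw : ∀ (n : ℕ) (F : Finset (DD (T.P n) (T.P n + 1))) (ε : ℝ), 0 < ε → ∃ m, n ≤ m ∧
      ComWitness {g | ∃ f ∈ F, T.emb m g = T.emb n f} ε)
    (θ : A ≃⋆ₐ[ℂ] S) (fS : A →⋆ₐ[ℂ] S) (gS : B →⋆ₐ[ℂ] S) (hfg : ∀ a b, Commute (fS a) (gS b))
    (hdense : Dense ((StarAlgebra.adjoin ℂ (Set.range fS ∪ Set.range gS) :
      StarSubalgebra ℂ S) : Set S)) (ω : Ultrafilter ℕ) (hω : (ω : Filter ℕ) ≤ cofinite) :
    NoCharacters (FOmega A ω) := by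
  obtain ⟨x, z, hx, hz, he, hc⟩ := exists_seq T hw
  let back : S →⋆ₐ[ℂ] A := θ.symm.toStarAlgHom
  let ιB : B →⋆ₐ[ℂ] A := back.comp gS
  -- the sequences
  let sq : (y : ℕ → B) → (∀ n, ‖y n‖ ≤ 10000) → (ℕ →ᵇ A) := fun y hy =>
    BoundedContinuousFunction.ofNormedAddCommGroup (fun n => ιB (y n))
      continuous_of_discreteTopology 10000 fun n =>
        (NonUnitalStarAlgHom.norm_apply_le ιB _).trans (hy n)
  let con : S →⋆ₐ[ℂ] Ultrapower A ω :=
    (constHom (A := A) ω).comp back
  have hsq : ∀ (y : ℕ → B) (hy : ∀ n, ‖y n‖ ≤ 10000),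
      (∀ b, Tendsto (fun n => ‖y n * b - b * y n‖) atTop (𝓝 0)) →
      ∀ w ∈ Set.range fS ∪ Set.range gS, Commute (con w) (cls ω (sq y hy)) := by
    intro y hy hlim w hw
    show constSeq ω (back w) * cls ω (sq y hy) = cls ω (sq y hy) * constSeq ω (back w)
    rw [← map_mul, ← map_mul, cls_eq_cls, mem_nullSeq]
    obtain ⟨a, rfl⟩ | ⟨b, rfl⟩ := hw
    · refine tendsto_const_nhds.congr fun n => ?_
      show (0 : ℝ) = ‖back (fS a) * back (gS (y n)) - back (gS (y n)) * back (fS a)‖
      rw [← map_mul, ← map_mul, (hfg a (y n)).eq, sub_self, norm_zero]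
    · refine squeeze_zero (fun n => norm_nonneg _) (fun n => ?_)
        (((hlim b).mono_left (hω.trans Nat.cofinite_eq_atTop.le)))
      show ‖ιB b * ιB (y n) - ιB (y n) * ιB b‖ ≤ _
      rw [← map_mul, ← map_mul, ← map_sub]
      exact (NonUnitalStarAlgHom.norm_apply_le ιB _).trans_eq (norm_sub_rev _ _)
  have hcentral : ∀ (y : ℕ → B) (hy : ∀ n, ‖y n‖ ≤ 10000),
      (∀ b, Tendsto (fun n => ‖y n * b - b * y n‖) atTop (𝓝 0)) →
      cls ω (sq y hy) ∈ Central A ω := by
    intro y hy hlim
    have hy' : ∀ n, ‖star (y n)‖ ≤ 10000 := fun n => (norm_star (y n)).trans_le (hy n)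
    have hstar : star (cls ω (sq y hy)) = cls ω (sq (fun n => star (y n)) hy') := by
      rw [star_cls]
      exact congrArg (cls ω) (BoundedContinuousFunction.ext fun n => (map_star ιB (y n)).symm)
    have hlim' : ∀ b, Tendsto (fun n => ‖star (y n) * b - b * star (y n)‖) atTop (𝓝 0) := by
      intro b
      refine (hlim (star b)).congr fun n => ?_
      rw [← norm_star, star_sub, star_mul, star_mul, star_star, norm_sub_rev]
    rw [mem_central]
    intro a
    have h := commute_of_gen con hdense (cls ω (sq y hy))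
      (fun w hw => ⟨hsq y hy hlim w hw, hstar ▸ hsq _ hy' hlim' w hw⟩) (θ a)
    rwa [show con (θ a) = constSeq ω a from congrArg (constSeq ω) (θ.symm_apply_apply a)] at h
  let X : Fin 2 → FOmega A ω := fun i =>
    ⟨cls ω (sq (fun n => x n i) fun n => hx n i), hcentral (fun n => x n i) (fun n => hx n i) (hc i)⟩
  -- a left inverse of the sum is central because the sum is
  let σ : FOmega A ω := ∑ i, (star (X i) * X i - X i * star (X i)) *
    (star (X i) * X i - X i * star (X i))
  let W : Ultrapower A ω := cls ω (sq z hz)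
  have hW : W * σ.1 = 1 ∧ σ.1 * W = 1 := by
    have e : σ.1 = cls ω (∑ i, (star (sq (fun n => x n i) fun n => hx n i) *
        sq (fun n => x n i) (fun n => hx n i) - sq (fun n => x n i) (fun n => hx n i) *
        star (sq (fun n => x n i) fun n => hx n i)) *
        (star (sq (fun n => x n i) fun n => hx n i) *
        sq (fun n => x n i) (fun n => hx n i) - sq (fun n => x n i) (fun n => hx n i) *
        star (sq (fun n => x n i) fun n => hx n i))) := by
      simp only [map_sum, map_mul, map_sub, ← star_cls]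
      simp only [σ, X, Fin.sum_univ_two]
      rfl
    rw [e, ← map_mul, ← map_mul]
    have hpt : ∀ n, ιB (z n) * ιB (∑ i, (star (x n i) * x n i - x n i * star (x n i)) *
        (star (x n i) * x n i - x n i * star (x n i))) = 1 ∧
        ιB (∑ i, (star (x n i) * x n i - x n i * star (x n i)) *
        (star (x n i) * x n i - x n i * star (x n i))) * ιB (z n) = 1 := by
      intro n
      have hsa : ∀ i, star ((star (x n i) * x n i - x n i * star (x n i)) *
          (star (x n i) * x n i - x n i * star (x n i))) =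
          (star (x n i) * x n i - x n i * star (x n i)) *
          (star (x n i) * x n i - x n i * star (x n i)) := fun i => by
        simp only [star_mul, star_sub, star_star]
      have h2 := congrArg star (he n)
      rw [star_mul, star_sum, Finset.sum_congr rfl (fun i _ => hsa i), star_one] at h2
      have h3 := left_inv_eq_right_inv (he n) h2
      refine ⟨by rw [← map_mul, he n, map_one], ?_⟩
      rw [← map_mul, h3, h2, map_one]
    constructor <;> rw [← map_one (cls ω)] <;> congr 1 <;> ext n <;>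
      simp only [sq, BoundedContinuousFunction.coe_mul, BoundedContinuousFunction.coe_one,
        BoundedContinuousFunction.coe_sum, BoundedContinuousFunction.coe_sub,
        BoundedContinuousFunction.coe_star, Pi.mul_apply, Pi.one_apply, Finset.sum_apply,
        Pi.sub_apply, Pi.star_apply, BoundedContinuousFunction.coe_ofNormedAddCommGroup,
        ← map_star, ← map_mul, ← map_sub, ← map_sum]
    · rw [map_mul]; exact (hpt n).1
    · rw [map_mul]; exact (hpt n).2
  have hWc : W ∈ Central A ω := by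
    rw [mem_central]
    intro a
    have h : Commute (constSeq ω a) σ.1 := (mem_central ω).1 σ.2 a
    show constSeq ω a * W = W * constSeq ω a
    calc constSeq ω a * W = W * (σ.1 * constSeq ω a) * W := by
          rw [← mul_assoc W, hW.1, one_mul]
      _ = W * constSeq ω a := by rw [← h.eq, mul_assoc, mul_assoc, hW.2, mul_one]
  intro χ
  refine DFunLike.ext _ _ fun y => ?_
  show χ y = 0
  let Wc : FOmega A ω := ⟨W, hWc⟩
  have hone : Wc * σ = 1 := Subtype.ext hW.1
  have hσ : χ σ = 0 := by
    simp only [σ, map_sum, map_mul, map_sub, map_star]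
    simp [mul_comm]
  calc χ y = χ (1 * y) := by rw [one_mul]
    _ = 0 := by rw [← hone, map_mul, map_mul, hσ, mul_zero, zero_mul]

open NC in
/-- `NoCharStmt`. -/
theorem noChar : NoCharStmt := by
  intro A B _ _ _ _ T hw hAB ω hω
  obtain ⟨H, K, i₁, i₂, i₃, j₁, j₂, j₃, π, ρ, -, -, ⟨θ⟩⟩ := hAB
  let S := spatial π ρ
  have hclS : IsClosed (S : Set (HTensor H K →L[ℂ] HTensor H K)) :=
    StarSubalgebra.isClosed_topologicalClosure _
  let : CStarAlgebra S := StarSubalgebra.cstarAlgebra S (h_closed := hclS)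
  let f : A →⋆ₐ[ℂ] (HTensor H K →L[ℂ] HTensor H K) := (Rep.left (H := H) (K := K)).comp π
  let g : B →⋆ₐ[ℂ] (HTensor H K →L[ℂ] HTensor H K) := (Rep.right (H := H) (K := K)).comp ρ
  have hfS : ∀ a, f a ∈ S := fun a =>
    StarSubalgebra.le_topologicalClosure _ (StarAlgebra.subset_adjoin ℂ _ (Or.inl ⟨a, rfl⟩))
  have hgS : ∀ b, g b ∈ S := fun b =>
    StarSubalgebra.le_topologicalClosure _ (StarAlgebra.subset_adjoin ℂ _ (Or.inr ⟨b, rfl⟩))
  let fS : A →⋆ₐ[ℂ] S := f.codRestrict S hfS
  let gS : B →⋆ₐ[ℂ] S := g.codRestrict S hgS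
  have hfg : ∀ a b, Commute (fS a) (gS b) := fun a b =>
    Subtype.ext (Rep.amp_commute (π a) (ρ b)).eq
  have hdense : Dense ((StarAlgebra.adjoin ℂ (Set.range fS ∪ Set.range gS) :
      StarSubalgebra ℂ S) : Set S) := by
    rw [Subtype.dense_iff]
    intro y hy
    have e : Subtype.val '' ((StarAlgebra.adjoin ℂ (Set.range fS ∪ Set.range gS) :
        StarSubalgebra ℂ S) : Set S) =
        (StarAlgebra.adjoin ℂ (Set.range f ∪ Set.range g) : StarSubalgebra ℂ _) := by
      show S.subtype '' _ = _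
      rw [← StarSubalgebra.coe_map, StarAlgHom.map_adjoin, Set.image_union, ← Set.range_comp,
        ← Set.range_comp]
      rfl
    exact (Set.ext_iff.1 (congrArg closure e) y).2 hy
  exact noChar_of_gen T hw θ fS gS hfg hdense ω hω

end

end Vale.P095.Equi
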