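import Mathlib

/-!
# P095: the notions of the question for unital algebras, over Mathlib only

* `IsJiangSuAlg B`: a simple unital C⋆-algebra with a unique tracial state and an increasing
  sequence of unital subalgebras isomorphic to prime dimension drop algebras with dense union.
* `IsMinTensor ιA ιB`: `R` with these maps is the minimal tensor product of `A` and `B`.
* `IsAbsorbing A B`: `A` is isomorphic to `A ⊗ B`.
* `IsEquiAbsorbing A B α`: `α` is cocycle conjugate to `α ⊗ id` on `A ⊗ B`.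
* `HasCentralCommutators A ω`: commutators generate `F_ω(A)` as an ideal.
-/

open scoped InnerProductSpace Kronecker Matrix.Norms.L2Operator
open Filter Topology

namespace Vale.P095.Equi

noncomputable section

/-- A tracial state exists. -/
def HasTracialState (A : Type) [CStarAlgebra A] : Prop :=
  ∃ τ : A →ₗ[ℂ] ℂ, τ 1 = 1 ∧ (∀ x, 0 ≤ (τ (star x * x)).re ∧ (τ (star x * x)).im = 0) ∧
    ∀ x y, τ (x * y) = τ (y * x)

/-- The unital algebra `S` is isomorphic to the dimension drop algebra `Z(P,Q)`: it embeds into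
`C([0,1], M_P ⊗ M_Q)` onto the functions with values in `M_P ⊗ 1` at `0` and `1 ⊗ M_Q` at `1`. -/
def IsDimDrop (S : Type) [Ring S] [Algebra ℂ S] [StarRing S] (P Q : ℕ) : Prop :=
  ∃ φ : S →⋆ₐ[ℂ] C(Set.Icc (0 : ℝ) 1, Matrix (Fin P × Fin Q) (Fin P × Fin Q) ℂ),
    Function.Injective φ ∧ ∀ f, f ∈ Set.range φ ↔
      ((∃ X : Matrix (Fin P) (Fin P) ℂ, f 0 = X ⊗ₖ (1 : Matrix (Fin Q) (Fin Q) ℂ)) ∧
        ∃ Y : Matrix (Fin Q) (Fin Q) ℂ, f 1 = (1 : Matrix (Fin P) (Fin P) ℂ) ⊗ₖ Y)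

/-- Jiang–Su's defining property of `Z`. -/
def IsJiangSuAlg (B : Type) [CStarAlgebra B] : Prop :=
  IsSimpleRing B ∧
    (∃! τ : B →L[ℂ] ℂ, τ 1 = 1 ∧ (∀ b, 0 ≤ (τ (star b * b)).re ∧ (τ (star b * b)).im = 0) ∧
      ∀ a b, τ (a * b) = τ (b * a)) ∧
    ∃ S : ℕ → StarSubalgebra ℂ B, Monotone S ∧
      (∀ n, ∃ P Q : ℕ, 1 < P ∧ 1 < Q ∧ Nat.Coprime P Q ∧ IsDimDrop (S n) P Q) ∧
      Dense (⋃ n, (S n : Set B))

/-- The Hilbert space `L` is `H ⊗ K`, with elementary tensors `t`. -/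
def IsTensorPairing {H K L : Type} [NormedAddCommGroup H] [InnerProductSpace ℂ H]
    [NormedAddCommGroup K] [InnerProductSpace ℂ K] [NormedAddCommGroup L] [InnerProductSpace ℂ L]
    (t : H → K → L) : Prop :=
  (∀ x y x' y', ⟪t x y, t x' y'⟫_ℂ = ⟪x, x'⟫_ℂ * ⟪y, y'⟫_ℂ) ∧
    Dense (Submodule.span ℂ (Set.range fun p : H × K => t p.1 p.2) : Set L)

/-- `F a` is `f a ⊗ 1` on elementary tensors. -/
def ActsLeft {H K L A : Type} [NormedAddCommGroup H] [NormedSpace ℂ H] [NormedAddCommGroup L]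
    [NormedSpace ℂ L] (t : H → K → L) (f : A → (H →L[ℂ] H)) (F : A → (L →L[ℂ] L)) : Prop :=
  ∀ a x y, F a (t x y) = t (f a x) y

/-- An injective unital representation on a Hilbert space. -/
def IsFaithfulRep {A H : Type} [CStarAlgebra A] [NormedAddCommGroup H] [InnerProductSpace ℂ H]
    [CompleteSpace H] (π : A → (H →L[ℂ] H)) : Prop :=
  ∃ f : A →⋆ₐ[ℂ] (H →L[ℂ] H), Function.Injective f ∧ ∀ a, π a = f a

/-- The copies generate. -/
def Generates {A B R : Type} [CStarAlgebra A] [CStarAlgebra B] [CStarAlgebra R]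
    (ιA : A →⋆ₐ[ℂ] R) (ιB : B →⋆ₐ[ℂ] R) : Prop :=
  Dense ((StarAlgebra.adjoin ℂ (Set.range ιA ∪ Set.range ιB) : StarSubalgebra ℂ R) : Set R)

/-- `R` with `ιA`, `ιB` is `A ⊗_min B`: generated by the two copies and faithfully represented on a
Hilbert space `L = H ⊗ K` as `π a ⊗ 1` and `1 ⊗ ρ b`. -/
def IsMinTensor {A B R : Type} [CStarAlgebra A] [CStarAlgebra B] [CStarAlgebra R]
    (ιA : A →⋆ₐ[ℂ] R) (ιB : B →⋆ₐ[ℂ] R) : Prop :=
  Generates ιA ιB ∧
    ∃ (H K L : Type) (_ : NormedAddCommGroup H) (_ : InnerProductSpace ℂ H) (_ : CompleteSpace H)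
      (_ : NormedAddCommGroup K) (_ : InnerProductSpace ℂ K) (_ : CompleteSpace K)
      (_ : NormedAddCommGroup L) (_ : InnerProductSpace ℂ L) (_ : CompleteSpace L)
      (π : A → (H →L[ℂ] H)) (ρ : B → (K →L[ℂ] K)) (j : R → (L →L[ℂ] L)) (t : H → K → L),
      IsFaithfulRep π ∧ IsFaithfulRep ρ ∧ IsFaithfulRep j ∧ IsTensorPairing t ∧
      ActsLeft t π (fun a => j (ιA a)) ∧ ActsLeft (fun y x => t x y) ρ (fun b => j (ιB b))

/-- `A ≅ A ⊗ B`: `A` itself is a minimal tensor product of `A` and `B`. -/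
def IsAbsorbing (A B : Type) [CStarAlgebra A] [CStarAlgebra B] : Prop :=
  ∃ (ιA : A →⋆ₐ[ℂ] A) (ιB : B →⋆ₐ[ℂ] A), IsMinTensor ιA ιB

/-- `β` extends `α` along `ιA` and fixes the copy `ιB`. -/
def IsStabilised {A B R G : Type} [Group G] [CStarAlgebra A] [CStarAlgebra B] [CStarAlgebra R]
    (ιA : A →⋆ₐ[ℂ] R) (ιB : B →⋆ₐ[ℂ] R) (α : G →* (A ≃⋆ₐ[ℂ] A))
    (β : G → (R →⋆ₐ[ℂ] R)) : Prop :=
  (∀ g a, β g (ιA a) = ιA (α g a)) ∧ ∀ g b, β g (ιB b) = ιB b

/-- The maps `f g` and `β g` are intertwined by `Φ` up to a `β`-cocycle of unitaries. -/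
def IsCocycleConjugate {A R G : Type} [Mul G] [CStarAlgebra R] (f : G → A → A) (β : G → R → R)
    (Φ : A → R) : Prop :=
  ∃ u : G → R, (∀ g, star (u g) * u g = 1 ∧ u g * star (u g) = 1) ∧
    (∀ g h, u (g * h) = u g * β g (u h)) ∧
    ∀ g a, Φ (f g a) = u g * β g (Φ a) * star (u g)

/-- `α` is cocycle conjugate to `α ⊗ id` on `A ⊗ B`. -/
def IsEquiAbsorbing (A B : Type) [CStarAlgebra A] [CStarAlgebra B] {G : Type} [Group G]
    (α : G →* (A ≃⋆ₐ[ℂ] A)) : Prop :=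
  ∃ (R : Type) (_ : CStarAlgebra R) (ιA : A →⋆ₐ[ℂ] R) (ιB : B →⋆ₐ[ℂ] R)
    (β : G → (R →⋆ₐ[ℂ] R)) (Φ : A ≃⋆ₐ[ℂ] R),
    IsMinTensor ιA ιB ∧ IsStabilised ιA ιB α β ∧
    IsCocycleConjugate (fun g a => α g a) (fun g r => β g r) Φ

/-- A bounded sequence commuting asymptotically with every element. -/
def IsCentralSeq (A : Type) [CStarAlgebra A] (ω : Ultrafilter ℕ) (x : ℕ → A) : Prop :=
  (∃ C : ℝ, ∀ n, ‖x n‖ ≤ C) ∧ ∀ a, Tendsto (fun n => ‖x n * a - a * x n‖) ω (𝓝 0)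

/-- The commutators of the central sequence algebra `F_ω(A)` generate it as an ideal. -/
def HasCentralCommutators (A : Type) [CStarAlgebra A] (ω : Ultrafilter ℕ) : Prop :=
  ∃ (m : ℕ) (u x y v : Fin m → ℕ → A),
    (∀ i, IsCentralSeq A ω (u i) ∧ IsCentralSeq A ω (x i) ∧ IsCentralSeq A ω (y i) ∧
      IsCentralSeq A ω (v i)) ∧
    Tendsto (fun n => ‖1 - ∑ i, u i n * (x i n * y i n - y i n * x i n) * v i n‖) ω (𝓝 0)

/-- A separable unital `A` is `A ⊗ Z` exactly when commutators generate `F_ω(A)`. -/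
def AbsorbsIffCentralCommutators (Z : Type) [CStarAlgebra Z] : Prop :=
  ∀ (A : Type) [CStarAlgebra A] [Nontrivial A] [TopologicalSpace.SeparableSpace A]
    (ω : Ultrafilter ℕ), (ω : Filter ℕ) ≤ Filter.cofinite →
    (IsAbsorbing A Z ↔ HasCentralCommutators A ω)

end

end Vale.P095.Equi
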