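import Vale.Agent.P095.Equi.Question
import Vale.Agent.P095.Equi.Defs
import Vale.Agent.P095.Equi.NoChar
import Vale.Agent.P095.Tracial.Basic
import Vale.Agent.P101.ZStab.Absorb.Rep

/-!
# P095: the modules' notions give the notions of the statement
-/

open scoped InnerProductSpace Kronecker Matrix.Norms.L2Operator TensorProduct
open Filter Topology UniformSpace

namespace Vale.P095.Equi

open Vale.P101 Vale.P101.ZS

theorem isJiangSuAlg {B : Type} [CStarAlgebra B] (h : IsJiangSu B) : IsJiangSuAlg B := by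
  obtain ⟨h1, h2, S, hS, hn, hd⟩ := h
  refine ⟨h1, h2, S, hS, fun n => ?_, hd⟩
  obtain ⟨P, Q, hP, hQ, hPQ, ⟨e⟩⟩ := hn n
  refine ⟨P, Q, hP, hQ, hPQ, (DD P Q).subtype.comp e.toStarAlgHom,
    Subtype.val_injective.comp e.injective, fun f => ⟨?_, fun hf => ?_⟩⟩
  · rintro ⟨x, rfl⟩
    exact (e x).2
  · exact ⟨e.symm ⟨f, hf⟩, congrArg Subtype.val (e.apply_symm_apply ⟨f, hf⟩)⟩

theorem tracialState_of {A : Type} [CStarAlgebra A] (h : HasTracialState A) :
    Nonempty (Tracial.TracialState A) := by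
  obtain ⟨τ, h1, h2, h3⟩ := h
  exact ⟨⟨τ, h1, h2, h3⟩⟩

section Pair

variable {A B : Type} [CStarAlgebra A] [CStarAlgebra B] {H K : Type} [NormedAddCommGroup H]
  [InnerProductSpace ℂ H] [CompleteSpace H] [NormedAddCommGroup K] [InnerProductSpace ℂ K]
  [CompleteSpace K] {π : A →⋆ₐ[ℂ] (H →L[ℂ] H)} {ρ : B →⋆ₐ[ℂ] (K →L[ℂ] K)}

/-- An algebra isomorphic to a spatial one is a minimal tensor product. -/
theorem isMinTensor_of_spatial {R : Type} [CStarAlgebra R] (hπ : Function.Injective π)
    (hρ : Function.Injective ρ) (θ : R ≃⋆ₐ[ℂ] spatial π ρ) (ιA : A →⋆ₐ[ℂ] R) (ιB : B →⋆ₐ[ℂ] R)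
    (hA : ∀ a, (θ (ιA a)).1 = ampLeft (π a)) (hB : ∀ b, (θ (ιB b)).1 = ampRight (ρ b)) :
    IsMinTensor ιA ιB := by
  have hcl : IsClosed (spatial π ρ : Set (HTensor H K →L[ℂ] HTensor H K)) :=
    StarSubalgebra.isClosed_topologicalClosure _
  let _inst : CStarAlgebra (spatial π ρ) := StarSubalgebra.cstarAlgebra _ (h_closed := hcl)
  refine ⟨?_, H, K, HTensor H K, inferInstance, inferInstance, inferInstance, inferInstance,
    inferInstance, inferInstance, inferInstance, inferInstance, inferInstance, fun a => π a,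
    fun b => ρ b, fun r => (spatial π ρ).subtype.comp θ.toStarAlgHom r,
    fun x y => Rep.emb (x ⊗ₜ[ℂ] y), ⟨π, hπ, fun a => rfl⟩, ⟨ρ, hρ, fun b => rfl⟩,
    ⟨_, Subtype.val_injective.comp θ.injective, fun r => rfl⟩,
    ⟨fun x y x' y' => by rw [Rep.inner_emb, TensorProduct.inner_tmul], ?_⟩,
    fun a x y => ?_, fun b y x => ?_⟩
  · intro z
    let j : R →⋆ₐ[ℂ] (HTensor H K →L[ℂ] HTensor H K) := (spatial π ρ).subtype.comp θ.toStarAlgHom
    have hj : Isometry j := AddMonoidHomClass.isometry_of_norm j fun r =>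
      NonUnitalStarAlgHom.norm_map j (Subtype.val_injective.comp θ.injective) r
    rw [hj.isEmbedding.isInducing.closure_eq_preimage_closure_image, Set.mem_preimage]
    have e : j '' ((StarAlgebra.adjoin ℂ (Set.range ιA ∪ Set.range ιB) : StarSubalgebra ℂ R) :
        Set R) = (StarAlgebra.adjoin ℂ (Set.range (fun a => ampLeft (K := K) (π a)) ∪
          Set.range (fun b => ampRight (H := H) (ρ b))) :
          StarSubalgebra ℂ (HTensor H K →L[ℂ] HTensor H K)) := by
      rw [← StarSubalgebra.coe_map, StarAlgHom.map_adjoin, Set.image_union, ← Set.range_comp,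
        ← Set.range_comp]
      congr 3
      · congr 1; exact funext hA
      · congr 1; exact funext hB
    rw [e, ← StarSubalgebra.topologicalClosure_coe]
    exact (θ z).2
  · intro z
    refine closure_mono ?_ (Rep.emb_dense (H := H) (K := K) z)
    rintro _ ⟨w, rfl⟩
    induction w using TensorProduct.induction_on with
    | zero => rw [Rep.emb_zero]; exact Submodule.zero_mem _
    | tmul x y => exact Submodule.subset_span ⟨(x, y), rfl⟩
    | add u v hu hv => rw [Rep.emb_add]; exact Submodule.add_mem _ hu hv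
  · show (θ (ιA a)).1 _ = _
    rw [hA, Rep.ampLeft_emb]; simp
  · show (θ (ιB b)).1 _ = _
    rw [hB, Rep.ampRight_emb]; simp

end Pair

/-- Equivariant stability inside `B(H ⊗ K)` gives the abstract notion. -/
theorem isEquiAbsorbing {A B : Type} [CStarAlgebra A] [CStarAlgebra B] {G : Type} [Group G]
    {α : G →* (A ≃⋆ₐ[ℂ] A)} (h : IsEquiStable A B α) : IsEquiAbsorbing A B α := by
  obtain ⟨H, K, iH, iH', iH'', iK, iK', iK'', π, ρ, β, Φ, u, hπ, hρ, hA, hB, h1, h2, h3⟩ := h
  have hl : ∀ a, ampLeft (K := K) (π a) ∈ spatial π ρ := fun a =>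
    StarSubalgebra.le_topologicalClosure _ (StarAlgebra.subset_adjoin ℂ _ (Or.inl ⟨a, rfl⟩))
  have hr : ∀ b, ampRight (H := H) (ρ b) ∈ spatial π ρ := fun b =>
    StarSubalgebra.le_topologicalClosure _ (StarAlgebra.subset_adjoin ℂ _ (Or.inr ⟨b, rfl⟩))
  let f : A →⋆ₐ[ℂ] spatial π ρ :=
    ((Rep.left (H := H) (K := K)).comp π).codRestrict _ hl
  let k : B →⋆ₐ[ℂ] spatial π ρ :=
    ((Rep.right (H := H) (K := K)).comp ρ).codRestrict _ hr
  have hcl : IsClosed (spatial π ρ : Set (HTensor H K →L[ℂ] HTensor H K)) :=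
    StarSubalgebra.isClosed_topologicalClosure _
  let _inst : CStarAlgebra (spatial π ρ) := StarSubalgebra.cstarAlgebra _ (h_closed := hcl)
  exact ⟨spatial π ρ, _inst, f, k, fun g => StarAlgHomClass.toStarAlgHom (β g), Φ,
    isMinTensor_of_spatial hπ hρ (StarAlgEquiv.refl ℂ _) f k (fun a => rfl) (fun b => rfl),
    ⟨fun g a => Subtype.ext (hA g a _ rfl), fun g b => hB g b _ rfl⟩, u, h1, h2, h3⟩

/-- `A ≅ A ⊗ B` in the sense of `ZStab` gives the abstract notion. -/
theorem isAbsorbing {A B : Type} [CStarAlgebra A] [CStarAlgebra B]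
    (h : IsSpatialTensor A A B) : IsAbsorbing A B := by
  obtain ⟨H, K, iH, iH', iH'', iK, iK', iK'', π, ρ, hπ, hρ, ⟨θ⟩⟩ := h
  have hl : ∀ a, ampLeft (K := K) (π a) ∈ spatial π ρ := fun a =>
    StarSubalgebra.le_topologicalClosure _ (StarAlgebra.subset_adjoin ℂ _ (Or.inl ⟨a, rfl⟩))
  have hr : ∀ b, ampRight (H := H) (ρ b) ∈ spatial π ρ := fun b =>
    StarSubalgebra.le_topologicalClosure _ (StarAlgebra.subset_adjoin ℂ _ (Or.inr ⟨b, rfl⟩))
  refine ⟨θ.symm.toStarAlgHom.comp (((Rep.left (H := H) (K := K)).comp π).codRestrict _ hl),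
    θ.symm.toStarAlgHom.comp (((Rep.right (H := H) (K := K)).comp ρ).codRestrict _ hr),
    isMinTensor_of_spatial hπ hρ θ _ _ (fun a => ?_) (fun b => ?_)⟩
  · exact congrArg Subtype.val (θ.apply_symm_apply _)
  · exact congrArg Subtype.val (θ.apply_symm_apply _)

/-- The two copies in a minimal tensor product commute. -/
theorem IsMinTensor.commute {A B R : Type} [CStarAlgebra A] [CStarAlgebra B] [CStarAlgebra R]
    {ιA : A →⋆ₐ[ℂ] R} {ιB : B →⋆ₐ[ℂ] R} (h : IsMinTensor ιA ιB) (a : A) (b : B) :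
    Commute (ιA a) (ιB b) := by
  obtain ⟨-, H, K, L, _, _, _, _, _, _, _, _, _, π, ρ, j, t, -, -, ⟨j', hj, hjj⟩, ⟨-, hd⟩, hl,
    hr⟩ := h
  simp only [ActsLeft, hjj] at hl hr
  refine hj ?_
  rw [map_mul, map_mul]
  refine ContinuousLinearMap.ext fun z => ?_
  refine congrFun (Continuous.ext_on hd (ContinuousLinearMap.continuous _)
    (ContinuousLinearMap.continuous _) ?_) z
  intro w hw
  induction hw using Submodule.span_induction with
  | mem w hw =>
    obtain ⟨⟨x, y⟩, rfl⟩ := hw
    show j' (ιA a) (j' (ιB b) (t x y)) = j' (ιB b) (j' (ιA a) (t x y))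
    rw [hr b y x, hl a x (ρ b y), hl a x y, hr b y (π a x)]
  | zero => simp
  | add u v _ _ hu hv => rw [map_add, map_add, hu, hv]
  | smul c u _ hu => rw [map_smul, map_smul, hu]

section Central

variable {A : Type} [CStarAlgebra A] {ω : Ultrafilter ℕ}

theorem cls_mem_central {x : ℕ → A} (hx : IsCentralSeq A ω x) :
    ∃ f : BoundedContinuousFunction ℕ A, (∀ n, f n = x n) ∧ cls ω f ∈ Central A ω := by
  obtain ⟨⟨C, hC⟩, hc⟩ := hx
  refine ⟨BoundedContinuousFunction.ofNormedAddCommGroup x continuous_of_discreteTopology C hC,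
    fun n => rfl, (mem_central ω).2 fun a => ?_⟩
  refine commute_cls_of_tendsto ω ?_
  simpa [norm_sub_rev] using hc a

theorem isCentralSeq_of_mem {f : BoundedContinuousFunction ℕ A} (h : cls ω f ∈ Central A ω) :
    IsCentralSeq A ω f :=
  ⟨⟨‖f‖, f.norm_coe_le_norm⟩, fun a => by
    simpa using tendsto_of_commute_cls ω (f := f) (g := BoundedContinuousFunction.const ℕ a)
      ((mem_central ω).1 h a).symm⟩

theorem hasCentralCommutators_iff : HasCentralCommutators A ω ↔ NoCharacters (FOmega A ω) := by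
  constructor
  · rintro ⟨m, u, x, y, v, hc, hlim⟩
    choose fu hu hu' using fun i => cls_mem_central (hc i).1
    choose fx hx hx' using fun i => cls_mem_central (hc i).2.1
    choose fy hy hy' using fun i => cls_mem_central (hc i).2.2.1
    choose fv hv hv' using fun i => cls_mem_central (hc i).2.2.2
    intro χ
    have h1 : χ 1 = 0 := by
      let U : Fin m → FOmega A ω := fun i => ⟨cls ω (fu i), hu' i⟩
      let pr : FOmega A ω →⋆ₐ[ℂ] Ultrapower A ω := (Central A ω).subtype
      let X : Fin m → FOmega A ω := fun i => ⟨cls ω (fx i), hx' i⟩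
      let Y : Fin m → FOmega A ω := fun i => ⟨cls ω (fy i), hy' i⟩
      let V : Fin m → FOmega A ω := fun i => ⟨cls ω (fv i), hv' i⟩
      have hsum : (1 : FOmega A ω) = ∑ i, U i * (X i * Y i - Y i * X i) * V i := by
        refine Subtype.ext ?_
        have e : cls ω (1 : BoundedContinuousFunction ℕ A) =
            cls ω (∑ i, fu i * (fx i * fy i - fy i * fx i) * fv i) := by
          rw [cls_eq_cls, mem_nullSeq]
          refine hlim.congr fun n => ?_
          simp [hu, hx, hy, hv]
        show (1 : Ultrapower A ω) = pr (∑ i, U i * (X i * Y i - Y i * X i) * V i)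
        rw [← map_one (cls ω), e, map_sum, map_sum]
        refine Finset.sum_congr rfl fun i _ => ?_
        simp only [map_mul, map_sub]
        rfl
      rw [hsum, map_sum]
      refine Finset.sum_eq_zero fun i _ => ?_
      rw [map_mul, map_mul, map_sub, map_mul, map_mul, mul_comm (χ (Y i)), sub_self, mul_zero,
        zero_mul]
    ext z
    rw [← mul_one z, map_mul, h1, mul_zero]
    rfl
  · intro h
    have hfull : Full (commSet (FOmega A ω)) := full_commSet ⟨fun χ => by
      have := congrArg (fun f : FOmega A ω →⋆ₙₐ[ℂ] ℂ => f 1) (h χ.toNonUnitalStarAlgHom)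
      exact one_ne_zero ((map_one χ).symm.trans this)⟩
    obtain ⟨n, u, s, v, hs, hsum⟩ := Full.exists_sum hfull
    choose x y hxsa hysa hxy using hs
    let pr : FOmega A ω →⋆ₐ[ℂ] Ultrapower A ω := (Central A ω).subtype
    choose fu hu using fun i => cls_surjective ω (pr (u i))
    choose fx hx using fun i => cls_surjective ω (pr (x i))
    choose fy hy using fun i => cls_surjective ω (pr (y i))
    choose fv hv using fun i => cls_surjective ω (pr (v i))
    refine ⟨n, fun i => fu i, fun i => fx i, fun i => fy i, fun i => fv i, fun i =>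
      ⟨isCentralSeq_of_mem (hu i ▸ (u i).2), isCentralSeq_of_mem (hx i ▸ (x i).2),
        isCentralSeq_of_mem (hy i ▸ (y i).2), isCentralSeq_of_mem (hv i ▸ (v i).2)⟩, ?_⟩
    have e : cls ω (1 : BoundedContinuousFunction ℕ A) =
        cls ω (∑ i, fu i * (fx i * fy i - fy i * fx i) * fv i) := by
      rw [map_one, ← map_one pr, ← hsum, map_sum, map_sum]
      refine Finset.sum_congr rfl fun i _ => ?_
      simp only [map_mul, map_sub, hu, hx, hy, hv, hxy]
    rw [cls_eq_cls, mem_nullSeq] at e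
    refine e.congr fun m => ?_
    simp

end Central

end Vale.P095.Equi
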