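import Vale.Agent.P101.ZStab.Absorb.Rep
import Vale.Agent.P095.Equi.Pins

/-!
# P095: `α ⊗ id` on a spatial tensor product

In the regular covariant representation `π a = (rep (α g⁻¹ a))_g` of `A` the action is spatially
implemented by the shifts, so `α g ⊗ id` is a star automorphism of the algebra `spatial π ρ`, and a
cocycle conjugacy onto this algebra witnesses `IsEquiStable` directly.
-/

open scoped TensorProduct InnerProductSpace

namespace Vale.P095.Equi

set_option maxSynthPendingDepth 4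

open Vale.P101.ZS Vale.P101.ZS.Rep

noncomputable section

variable {A B : Type} [CStarAlgebra A] [CStarAlgebra B] {G : Type} [Group G]

/-- The space of the regular covariant representation. -/
abbrev Reg (A G : Type) [CStarAlgebra A] : Type := lp (fun _ : G => Sp A) 2

theorem mem_cov (α : G →* (A ≃⋆ₐ[ℂ] A)) (a : A) (v : Reg A G) :
    Memℓp (fun g => rep (α g⁻¹ a) (v g)) 2 := by
  refine ((lp.memℓp v).const_smul (‖a‖ : ℂ)).mono' fun g => ?_
  rw [Pi.smul_apply, norm_smul, Complex.norm_real, norm_norm]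
  refine (ContinuousLinearMap.le_opNorm _ _).trans (mul_le_mul_of_nonneg_right ?_ (norm_nonneg _))
  exact (NonUnitalStarAlgHom.norm_apply_le (rep (A := A)) _).trans
    (NonUnitalStarAlgHom.norm_apply_le (α g⁻¹) a)

/-- The action of one element. -/
def covAct (α : G →* (A ≃⋆ₐ[ℂ] A)) (a : A) : Reg A G →L[ℂ] Reg A G :=
  LinearMap.mkContinuous
    { toFun := fun v => ⟨fun g => rep (α g⁻¹ a) (v g), mem_cov α a v⟩
      map_add' := fun v w => lp.ext (funext fun g => map_add _ (v g) (w g))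
      map_smul' := fun c v => lp.ext (funext fun g => map_smul _ c (v g)) }
    ‖a‖ fun v => by
      refine (lp.norm_mono (y := (‖a‖ : ℂ) • v) (by norm_num) fun g => ?_).trans ?_
      · show ‖rep (α g⁻¹ a) (v g)‖ ≤ ‖(‖a‖ : ℂ) • v g‖
        rw [norm_smul, Complex.norm_real, norm_norm]
        refine (ContinuousLinearMap.le_opNorm _ _).trans
          (mul_le_mul_of_nonneg_right ?_ (norm_nonneg _))
        exact (NonUnitalStarAlgHom.norm_apply_le (rep (A := A)) _).trans
          (NonUnitalStarAlgHom.norm_apply_le (α g⁻¹) a)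
      · rw [norm_smul, Complex.norm_real, norm_norm]

theorem covAct_apply (α : G →* (A ≃⋆ₐ[ℂ] A)) (a : A) (v : Reg A G) (g : G) :
    covAct α a v g = rep (α g⁻¹ a) (v g) := rfl

/-- The regular covariant representation. -/
def cov (α : G →* (A ≃⋆ₐ[ℂ] A)) : A →⋆ₐ[ℂ] (Reg A G →L[ℂ] Reg A G) where
  toFun := covAct α
  map_one' := ContinuousLinearMap.ext fun v => lp.ext (funext fun g => by
    rw [covAct_apply, map_one, map_one]; rfl)
  map_mul' a b := ContinuousLinearMap.ext fun v => lp.ext (funext fun g => by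
    rw [covAct_apply, map_mul, map_mul]; rfl)
  map_zero' := ContinuousLinearMap.ext fun v => lp.ext (funext fun g => by
    rw [covAct_apply, map_zero, map_zero]; rfl)
  map_add' a b := ContinuousLinearMap.ext fun v => lp.ext (funext fun g => by
    rw [covAct_apply, map_add, map_add]; rfl)
  commutes' c := ContinuousLinearMap.ext fun v => lp.ext (funext fun g => by
    rw [covAct_apply, AlgHomClass.commutes, AlgHomClass.commutes, Algebra.algebraMap_eq_smul_one,
      Algebra.algebraMap_eq_smul_one]; rfl)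
  map_star' a := by
    rw [ContinuousLinearMap.star_eq_adjoint]
    refine (ContinuousLinearMap.eq_adjoint_iff _ _).2 fun v w => ?_
    rw [lp.inner_eq_tsum, lp.inner_eq_tsum]
    refine tsum_congr fun g => ?_
    rw [covAct_apply, covAct_apply, map_star, map_star, ContinuousLinearMap.star_eq_adjoint,
      ContinuousLinearMap.adjoint_inner_left]

theorem cov_injective (α : G →* (A ≃⋆ₐ[ℂ] A)) : Function.Injective (cov α) := by
  classical
  intro a b h
  refine rep_injective (ContinuousLinearMap.ext fun v => ?_)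
  have := congrArg (fun T : Reg A G →L[ℂ] Reg A G => T (lp.single 2 1 v) 1) h
  simpa [cov, covAct_apply] using this

theorem mem_shift (h : G) (v : Reg A G) : Memℓp (fun g => v (h⁻¹ * g)) 2 := by
  refine memℓp_gen ?_
  exact ((lp.memℓp v).summable (by norm_num)).comp_injective (mul_right_injective h⁻¹)

/-- The shift by `h`. -/
def shift (h : G) : Reg A G →L[ℂ] Reg A G :=
  LinearMap.mkContinuous
    { toFun := fun v => ⟨fun g => v (h⁻¹ * g), mem_shift h v⟩
      map_add' := fun v w => rfl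
      map_smul' := fun c v => rfl }
    1 fun v => by
      rw [one_mul, lp.norm_eq_tsum_rpow (by norm_num), lp.norm_eq_tsum_rpow (by norm_num)]
      refine le_of_eq (congrArg (fun x : ℝ => x ^ _) ?_)
      exact (Equiv.mulLeft h⁻¹).tsum_eq fun g => ‖v g‖ ^ (2 : ENNReal).toReal

theorem shift_apply (h : G) (v : Reg A G) (g : G) : shift h v g = v (h⁻¹ * g) := rfl

theorem shift_mul (h k : G) : shift (A := A) h * shift k = shift (h * k) :=
  ContinuousLinearMap.ext fun v => lp.ext (funext fun g => by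
    show v (k⁻¹ * (h⁻¹ * g)) = v ((h * k)⁻¹ * g)
    rw [mul_inv_rev, mul_assoc])

theorem shift_one : shift (A := A) (1 : G) = 1 :=
  ContinuousLinearMap.ext fun v => lp.ext (funext fun g => by
    show v (1⁻¹ * g) = v g
    rw [inv_one, one_mul])

theorem star_shift (h : G) : star (shift (A := A) h) = shift h⁻¹ := by
  rw [ContinuousLinearMap.star_eq_adjoint]
  symm
  refine (ContinuousLinearMap.eq_adjoint_iff _ _).2 fun v w => ?_
  rw [lp.inner_eq_tsum, lp.inner_eq_tsum, ← (Equiv.mulLeft h⁻¹).tsum_eq]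
  refine tsum_congr fun g => ?_
  simp [shift_apply]

theorem shift_cov (α : G →* (A ≃⋆ₐ[ℂ] A)) (h : G) (a : A) :
    shift h * cov α a * shift h⁻¹ = cov α (α h a) :=
  ContinuousLinearMap.ext fun v => lp.ext (funext fun g => by
    show rep (α (h⁻¹ * g)⁻¹ a) (v (h⁻¹⁻¹ * (h⁻¹ * g))) = rep (α g⁻¹ (α h a)) (v g)
    rw [inv_inv, mul_inv_cancel_left, mul_inv_rev, inv_inv, map_mul, StarAlgEquiv.mul_apply])

theorem left_conj {H K : Type} [NormedAddCommGroup H] [InnerProductSpace ℂ H] [CompleteSpace H]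
    [NormedAddCommGroup K] [InnerProductSpace ℂ K] [CompleteSpace K] (S T V W : H →L[ℂ] H)
    (h : S * T * V = W) : left (K := K) S * left (K := K) T * left (K := K) V = left (K := K) W := by
  rw [← map_mul, ← map_mul, h]

theorem left_mul {H K : Type} [NormedAddCommGroup H] [InnerProductSpace ℂ H] [CompleteSpace H]
    [NormedAddCommGroup K] [InnerProductSpace ℂ K] [CompleteSpace K] (S T W : H →L[ℂ] H)
    (h : S * T = W) : left (K := K) S * left (K := K) T = left (K := K) W := by
  rw [← map_mul, h]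

/-- The C⋆-algebra generated by two homomorphisms. -/
abbrev genAlg {E : Type} [CStarAlgebra E] (f : A →⋆ₐ[ℂ] E) (k : B →⋆ₐ[ℂ] E) :
    StarSubalgebra ℂ E :=
  (StarAlgebra.adjoin ℂ (Set.range f ∪ Set.range k)).topologicalClosure

theorem left_mem_genAlg {E : Type} [CStarAlgebra E] (f : A →⋆ₐ[ℂ] E) (k : B →⋆ₐ[ℂ] E) (a : A) :
    f a ∈ genAlg f k :=
  StarSubalgebra.le_topologicalClosure _ (StarAlgebra.subset_adjoin ℂ _ (Or.inl ⟨a, rfl⟩))

theorem right_mem_genAlg {E : Type} [CStarAlgebra E] (f : A →⋆ₐ[ℂ] E) (k : B →⋆ₐ[ℂ] E) (b : B) :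
    k b ∈ genAlg f k :=
  StarSubalgebra.le_topologicalClosure _ (StarAlgebra.subset_adjoin ℂ _ (Or.inr ⟨b, rfl⟩))

/-- The action on the algebra generated by two commuting copies, implemented by unitaries. -/
theorem exists_generated_action {E : Type} [CStarAlgebra E] (α : G →* (A ≃⋆ₐ[ℂ] A))
    (f : A →⋆ₐ[ℂ] E) (k : B →⋆ₐ[ℂ] E) (U : G → E) (hU : ∀ g h, U g * U h = U (g * h))
    (hU1 : U 1 = 1) (hUs : ∀ h, star (U h) = U h⁻¹)
    (hUA : ∀ h a, U h * f a * U h⁻¹ = f (α h a)) (hUB : ∀ h b, Commute (U h) (k b)) :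
    ∃ β : G →* (genAlg f k ≃⋆ₐ[ℂ] genAlg f k),
      (∀ g a (x : genAlg f k), x.1 = f a → (β g x).1 = f (α g a)) ∧
      ∀ g b (x : genAlg f k), x.1 = k b → β g x = x := by
  let c : G → E →⋆ₐ[ℂ] E := fun h =>
    { toFun := fun x => U h * x * U h⁻¹
      map_one' := by rw [mul_one, hU, mul_inv_cancel, hU1]
      map_mul' := fun x y => by
        calc U h * (x * y) * U h⁻¹ = U h * x * (U h⁻¹ * U h) * y * U h⁻¹ := by
              rw [hU, inv_mul_cancel, hU1, mul_one]; noncomm_ring
          _ = _ := by noncomm_ring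
      map_zero' := by simp
      map_add' := fun x y => by rw [mul_add, add_mul]
      commutes' := fun r => by
        rw [← Algebra.commutes, mul_assoc, hU, mul_inv_cancel, hU1, mul_one]
      map_star' := fun x => by simp only [star_mul, hUs, inv_inv, mul_assoc] }
  have hcA : ∀ h a, c h (f a) = f (α h a) := hUA
  have hcB : ∀ h b, c h (k b) = k b := fun h b => by
    show U h * k b * U h⁻¹ = k b
    rw [(hUB h b).eq, mul_assoc, hU, mul_inv_cancel, hU1, mul_one]
  set T : StarSubalgebra ℂ E := StarAlgebra.adjoin ℂ (Set.range f ∪ Set.range k) with hT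
  set S : StarSubalgebra ℂ E := T.topologicalClosure with hS
  have hcS : ∀ h, ∀ x ∈ S, c h x ∈ S := fun h x hx => by
    have hcont : Continuous (c h) := (continuous_const.mul continuous_id).mul continuous_const
    refine map_mem_closure hcont hx fun y hy => ?_
    have : c h y ∈ T.map (c h) := ⟨y, hy, rfl⟩
    rw [hT, StarAlgHom.map_adjoin] at this
    refine StarAlgebra.adjoin_le ?_ this
    rintro _ ⟨z, ⟨a, rfl⟩ | ⟨b, rfl⟩, rfl⟩
    · exact StarAlgebra.subset_adjoin ℂ _ (Or.inl ⟨α h a, (hcA h a).symm⟩)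
    · exact StarAlgebra.subset_adjoin ℂ _ (Or.inr ⟨b, (hcB h b).symm⟩)
  let cS : G → (S →⋆ₐ[ℂ] S) := fun h =>
    ((c h).comp S.subtype).codRestrict S fun x => hcS h x x.2
  have hcmul : ∀ g h x, cS g (cS h x) = cS (g * h) x := fun g h x => Subtype.ext (by
    show U g * (U h * (x : E) * U h⁻¹) * U g⁻¹ = U (g * h) * (x : E) * U (g * h)⁻¹
    rw [mul_inv_rev, ← hU, ← hU]; noncomm_ring)
  have hc1 : ∀ x, cS 1 x = x := fun x => Subtype.ext (by
    show U 1 * (x : E) * U 1⁻¹ = (x : E)
    rw [inv_one, hU1, one_mul, mul_one])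
  let β : G →* (S ≃⋆ₐ[ℂ] S) :=
    { toFun := fun g => StarAlgEquiv.ofStarAlgHom (cS g) (cS g⁻¹)
        (StarAlgHom.ext fun x => by
          show cS g⁻¹ (cS g x) = x
          rw [hcmul, inv_mul_cancel, hc1])
        (StarAlgHom.ext fun x => by
          show cS g (cS g⁻¹ x) = x
          rw [hcmul, mul_inv_cancel, hc1])
      map_one' := StarAlgEquiv.ext hc1
      map_mul' := fun g h => StarAlgEquiv.ext fun x => (hcmul g h x).symm }
  exact ⟨β, fun g a x hx => (congrArg (c g) hx).trans (hcA g a),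
    fun g b x hx => Subtype.ext (((congrArg (c g) hx).trans (hcB g b)).trans hx.symm)⟩

/-- The generated algebra with its action, and a consequence of cocycle conjugacy onto it. -/
theorem exists_generated_conjugacy {E : Type} [CStarAlgebra E] (α : G →* (A ≃⋆ₐ[ℂ] A))
    (f : A →⋆ₐ[ℂ] E) (k : B →⋆ₐ[ℂ] E) (hf : Function.Injective f)
    (hfk : ∀ a b, Commute (f a) (k b)) (U : G → E) (hU : ∀ g h, U g * U h = U (g * h))
    (hU1 : U 1 = 1) (hUs : ∀ h, star (U h) = U h⁻¹)
    (hUA : ∀ h a, U h * f a * U h⁻¹ = f (α h a)) (hUB : ∀ h b, Commute (U h) (k b)) {P : Prop}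
    (hP : ∀ (β : G →* (genAlg f k ≃⋆ₐ[ℂ] genAlg f k)) (Φ : A ≃⋆ₐ[ℂ] genAlg f k)
      (u : G → genAlg f k), (∀ g a (x : genAlg f k), x.1 = f a → (β g x).1 = f (α g a)) →
      (∀ g b (x : genAlg f k), x.1 = k b → β g x = x) →
      (∀ g, star (u g) * u g = 1 ∧ u g * star (u g) = 1) →
      (∀ g h, u (g * h) = u g * β g (u h)) →
      (∀ g a, Φ (α g a) = u g * β g (Φ a) * star (u g)) → P) :
    ∃ (R : Type) (_ : CStarAlgebra R) (ιA : A →⋆ₐ[ℂ] R) (ιB : B →⋆ₐ[ℂ] R)
      (β : G →* (R ≃⋆ₐ[ℂ] R)),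
      Function.Injective ιA ∧ (∀ a b, Commute (ιA a) (ιB b)) ∧
      Dense ((StarAlgebra.adjoin ℂ (Set.range ιA ∪ Set.range ιB) : StarSubalgebra ℂ R) : Set R) ∧
      (∀ g a, β g (ιA a) = ιA (α g a)) ∧ (∀ g b, β g (ιB b) = ιB b) ∧
      ((∃ (Φ : A ≃⋆ₐ[ℂ] R) (u : G → R), (∀ g, star (u g) * u g = 1 ∧ u g * star (u g) = 1) ∧
          (∀ g h, u (g * h) = u g * β g (u h)) ∧
          ∀ g a, Φ (α g a) = u g * β g (Φ a) * star (u g)) →
        P) := by
  obtain ⟨β, hA, hB⟩ := exists_generated_action α f k U hU hU1 hUs hUA hUB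
  have hcl : IsClosed (genAlg f k : Set E) := StarSubalgebra.isClosed_topologicalClosure _
  refine ⟨genAlg f k, StarSubalgebra.cstarAlgebra _ (h_closed := hcl),
    f.codRestrict _ (left_mem_genAlg f k), k.codRestrict _ (right_mem_genAlg f k), β,
    fun a a' h => hf (congrArg Subtype.val h), fun a b => Subtype.ext (hfk a b).eq, ?_,
    fun g a => Subtype.ext (hA g a _ rfl), fun g b => hB g b _ rfl, ?_⟩
  · rw [Subtype.dense_iff]
    intro z hz
    have e : Subtype.val '' ((StarAlgebra.adjoin ℂ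
        (Set.range (f.codRestrict _ (left_mem_genAlg f k)) ∪
          Set.range (k.codRestrict _ (right_mem_genAlg f k))) :
          StarSubalgebra ℂ (genAlg f k)) : Set (genAlg f k)) =
        (StarAlgebra.adjoin ℂ (Set.range f ∪ Set.range k) : StarSubalgebra ℂ E) := by
      show (genAlg f k).subtype '' _ = _
      rw [← StarSubalgebra.coe_map, StarAlgHom.map_adjoin, Set.image_union, ← Set.range_comp,
        ← Set.range_comp]
      rfl
    exact (Set.ext_iff.1 (congrArg closure e) z).2 hz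
  · rintro ⟨Φ, u, h1, h2, h3⟩
    exact hP β Φ u hA hB h1 h2 h3

/-- The spatial algebra of a covariant representation carries `α ⊗ id`. -/
theorem rep_of_covariant {H K : Type} [iH : NormedAddCommGroup H]
    [iH' : InnerProductSpace ℂ H] [iH'' : CompleteSpace H] [iK : NormedAddCommGroup K]
    [iK' : InnerProductSpace ℂ K] [iK'' : CompleteSpace K] [Nontrivial K]
    (α : G →* (A ≃⋆ₐ[ℂ] A)) (π : A →⋆ₐ[ℂ] (H →L[ℂ] H)) (ρ : B →⋆ₐ[ℂ] (K →L[ℂ] K))
    (hπ : Function.Injective π) (hρ : Function.Injective ρ) (S : G → (H →L[ℂ] H))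
    (hS : ∀ g h, S g * S h = S (g * h)) (hS1 : S 1 = 1) (hSs : ∀ h, star (S h) = S h⁻¹)
    (hSA : ∀ h a, S h * π a * S h⁻¹ = π (α h a)) :
    ∃ (R : Type) (_ : CStarAlgebra R) (ιA : A →⋆ₐ[ℂ] R) (ιB : B →⋆ₐ[ℂ] R)
      (β : G →* (R ≃⋆ₐ[ℂ] R)),
      Function.Injective ιA ∧ (∀ a b, Commute (ιA a) (ιB b)) ∧
      Dense ((StarAlgebra.adjoin ℂ (Set.range ιA ∪ Set.range ιB) : StarSubalgebra ℂ R) : Set R) ∧
      (∀ g a, β g (ιA a) = ιA (α g a)) ∧ (∀ g b, β g (ιB b) = ιB b) ∧
      ((∃ (Φ : A ≃⋆ₐ[ℂ] R) (u : G → R), (∀ g, star (u g) * u g = 1 ∧ u g * star (u g) = 1) ∧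
          (∀ g h, u (g * h) = u g * β g (u h)) ∧
          ∀ g a, Φ (α g a) = u g * β g (Φ a) * star (u g)) →
        IsEquiStable A B α) :=
  exists_generated_conjugacy α ((left (H := H) (K := K)).comp π)
    ((right (H := H) (K := K)).comp ρ) (left_injective.comp hπ)
    (fun a b => amp_commute (π a) (ρ b)) (fun h => left (S h))
    (fun g h => left_mul _ _ _ (hS g h)) ((congrArg (left (H := H) (K := K)) hS1).trans (map_one _))
    (fun h => (map_star _ _).symm.trans (congrArg _ (hSs h)))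
    (fun h a => left_conj _ _ _ _ (hSA h a))
    (fun h b => amp_commute (S h) (ρ b))
    fun β Φ u hA hB h1 h2 h3 =>
      ⟨H, K, iH, iH', iH'', iK, iK', iK'', π, ρ, β, Φ, u, hπ, hρ, hA, hB, h1, h2, h3⟩

/-- Spatial tensor products carry `α ⊗ id`. -/
theorem rep : RepStmt := by
  intro A B _ _ _ _ G _ α
  have hK : Nontrivial (Sp B) := by
    by_contra hK
    rw [not_nontrivial_iff_subsingleton] at hK
    exact not_subsingleton B ((Rep.rep_injective (A := B)).subsingleton)
  exact rep_of_covariant (H := Reg A G) (K := Sp B) α (cov α) Rep.rep (cov_injective α)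
    Rep.rep_injective shift shift_mul shift_one star_shift (shift_cov α)

end

end Vale.P095.Equi
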